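import Claimed.Agent.R316.Pack016_2
import Claimed.Agent.R316.Pack014_2

/-!
# Row 316, S10 (Section 9 of the paper, `uniformization.tex`): estimates for polynomial maps `PMap n`

Owner: helper84.  PAPER FREE.  Leaves S10-POLY-A, S10-POLY-B: PROVED.

Only ONE estimate needs monomials: `norm_ev_le`.  All the others follow from it and `SCV/Basic.lean` applied on the unit ball
(where `|P| ≤ cnorm P`): Schwarz lemma, quadratic remainder, Lipschitz derivative, mean value inequality on convex balls.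
-/

set_option autoImplicit false
open scoped ContDiff ComplexOrder Topology
open Filter

namespace Claimed.Agent.R316

namespace PMap

variable {n : ℕ} (P : PMap n)

theorem ev_apply (z : CE (Fin n)) (i : Fin n) : P.ev z i = MvPolynomial.eval (fun j => z j) (P i) := rfl

theorem pm_eval_differentiable (p : MvPolynomial (Fin n) ℂ) :
    Differentiable ℂ fun z : CE (Fin n) => MvPolynomial.eval (fun j => z j) p := by
  induction p using MvPolynomial.induction_on with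
  | C a => simp only [MvPolynomial.eval_C]; exact differentiable_const a
  | add p q hp hq => simp only [map_add]; exact hp.add hq
  | mul_X p j hp =>
    simp only [map_mul, MvPolynomial.eval_X]
    exact hp.mul ((EuclideanSpace.proj (𝕜 := ℂ) j).differentiable)

theorem ev_differentiable : Differentiable ℂ P.ev := by
  rw [differentiable_euclidean]
  intro i
  exact pm_eval_differentiable (P i)

theorem ev_continuous : Continuous P.ev := P.ev_differentiable.continuous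

theorem cnorm_nonneg : 0 ≤ P.cnorm :=
  Finset.sum_nonneg fun _ _ => Finset.sum_nonneg fun _ _ => norm_nonneg _

theorem pm_norm_le_sum (x : CE (Fin n)) : ‖x‖ ≤ ∑ i, ‖x i‖ := by
  rw [EuclideanSpace.norm_eq]
  have hS : 0 ≤ ∑ i, ‖x i‖ := Finset.sum_nonneg fun _ _ => norm_nonneg _
  refine Real.sqrt_le_iff.2 ⟨hS, ?_⟩
  calc ∑ i, ‖x i‖ ^ 2 ≤ ∑ i, ‖x i‖ * ∑ j, ‖x j‖ := by
        refine Finset.sum_le_sum fun i _ => ?_
        rw [sq]
        exact mul_le_mul_of_nonneg_left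
          (Finset.single_le_sum (f := fun j => ‖x j‖) (fun _ _ => norm_nonneg _) (Finset.mem_univ i)) (norm_nonneg _)
    _ = (∑ i, ‖x i‖) ^ 2 := by rw [← Finset.sum_mul, sq]

theorem pm_norm_eval_le (p : MvPolynomial (Fin n) ℂ) (z : CE (Fin n)) {D : ℕ} (hD : p.totalDegree ≤ D) :
    ‖MvPolynomial.eval (fun j => z j) p‖ ≤ (∑ m ∈ p.support, ‖p.coeff m‖) * max 1 ‖z‖ ^ D := by
  rw [MvPolynomial.eval_eq', Finset.sum_mul]
  refine (norm_sum_le _ _).trans (Finset.sum_le_sum fun m hm => ?_)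
  rw [norm_mul, norm_prod]
  refine mul_le_mul_of_nonneg_left ?_ (norm_nonneg _)
  have hB : (1 : ℝ) ≤ max 1 ‖z‖ := le_max_left _ _
  calc ∏ i, ‖z i ^ m i‖ ≤ ∏ i, max 1 ‖z‖ ^ m i := by
        refine Finset.prod_le_prod (fun _ _ => norm_nonneg _) fun i _ => ?_
        rw [norm_pow]
        exact pow_le_pow_left₀ (norm_nonneg _) ((PiLp.norm_apply_le z i).trans (le_max_right _ _)) _
    _ = max 1 ‖z‖ ^ (∑ i, m i) := Finset.prod_pow_eq_pow_sum _ _ _
    _ ≤ max 1 ‖z‖ ^ D := by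
        refine pow_le_pow_right₀ hB ?_
        have := MvPolynomial.le_totalDegree hm
        rw [Finsupp.sum_fintype _ _ (fun _ => rfl)] at this
        exact this.trans hD

/-- the basic bound. -/
theorem norm_ev_le (z : CE (Fin n)) : ‖P.ev z‖ ≤ P.cnorm * max 1 ‖z‖ ^ P.deg := by
  refine (pm_norm_le_sum _).trans ?_
  rw [PMap.cnorm, Finset.sum_mul]
  refine Finset.sum_le_sum fun i _ => ?_
  exact pm_norm_eval_le (P i) z (Finset.le_sup (f := fun i => (P i).totalDegree) (Finset.mem_univ i))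

theorem norm_ev_le_one {z : CE (Fin n)} (hz : ‖z‖ ≤ 1) : ‖P.ev z‖ ≤ P.cnorm := by
  have h := P.norm_ev_le z
  rwa [max_eq_left hz, one_pow, mul_one] at h

/-- bound with a degree bound `D`. -/
theorem norm_ev_le_of_deg_le {D : ℕ} (hD : P.deg ≤ D) {B : ℝ} (hB : 1 ≤ B) {z : CE (Fin n)} (hz : ‖z‖ ≤ B) :
    ‖P.ev z‖ ≤ P.cnorm * B ^ D := by
  refine (P.norm_ev_le z).trans (mul_le_mul_of_nonneg_left ?_ P.cnorm_nonneg)
  calc max 1 ‖z‖ ^ P.deg ≤ B ^ P.deg := pow_le_pow_left₀ (by positivity) (max_le hB hz) _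
    _ ≤ B ^ D := pow_le_pow_right₀ hB hD

theorem pm_bdd : ∀ z ∈ Metric.ball (0 : CE (Fin n)) 1, ‖P.ev z‖ ≤ P.cnorm := fun _ hz =>
  P.norm_ev_le_one (mem_ball_zero_iff.1 hz).le

theorem norm_ev_le_of_zero (h0 : P.ev 0 = 0) {z : CE (Fin n)} (hz : ‖z‖ ≤ 1) :
    ‖P.ev z‖ ≤ P.cnorm * ‖z‖ := by
  rcases hz.eq_or_lt with h1 | h1
  · rw [h1, mul_one]; exact P.norm_ev_le_one hz
  · have := scv_schwarz one_pos P.ev_differentiable.differentiableOn P.pm_bdd h0 z (mem_ball_zero_iff.2 h1)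
    simpa using this

theorem norm_fderiv_zero_le : ‖fderiv ℂ P.ev 0‖ ≤ P.cnorm := by
  have := scv_norm_fderiv_le one_pos P.ev_differentiable.differentiableOn P.pm_bdd
  simpa using this

theorem norm_ev_sub_lin_le (h0 : P.ev 0 = 0) {z : CE (Fin n)} (hz : ‖z‖ < 1) :
    ‖P.ev z - fderiv ℂ P.ev 0 z‖ ≤ 3 * P.cnorm * ‖z‖ ^ 2 := by
  have := scv_norm_sub_lin_le one_pos P.ev_differentiable.differentiableOn P.pm_bdd z (mem_ball_zero_iff.2 hz)
  simpa [h0] using this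

theorem norm_fderiv_sub_le {y : CE (Fin n)} (hy : ‖y‖ ≤ 1 / 2) :
    ‖fderiv ℂ P.ev y - fderiv ℂ P.ev 0‖ ≤ 12 * P.cnorm * ‖y‖ := by
  have := scv_norm_fderiv_sub_le one_pos P.ev_differentiable.differentiableOn P.pm_bdd y hy
  simpa using this

/-- Lipschitz bound on a small ball. -/
theorem lipschitz_small {ρ : ℝ} (hρ : ρ ≤ 1 / 2) (a b : CE (Fin n)) (ha : ‖a‖ ≤ ρ) (hb : ‖b‖ ≤ ρ) :
    ‖P.ev a - P.ev b‖ ≤ (‖fderiv ℂ P.ev 0‖ + 12 * P.cnorm * ρ) * ‖a - b‖ := by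
  have hc := P.cnorm_nonneg
  refine (convex_closedBall (0 : CE (Fin n)) ρ).norm_image_sub_le_of_norm_fderiv_le (𝕜 := ℂ)
    (fun y _ => P.ev_differentiable y) (fun y hy => ?_) (mem_closedBall_zero_iff.2 hb) (mem_closedBall_zero_iff.2 ha)
  rw [mem_closedBall_zero_iff] at hy
  have h1 := P.norm_fderiv_sub_le (hy.trans hρ)
  have h2 : ‖fderiv ℂ P.ev y‖ ≤ ‖fderiv ℂ P.ev y - fderiv ℂ P.ev 0‖ + ‖fderiv ℂ P.ev 0‖ := by
    have := norm_add_le (fderiv ℂ P.ev y - fderiv ℂ P.ev 0) (fderiv ℂ P.ev 0)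
    rwa [sub_add_cancel] at this
  have h3 : 12 * P.cnorm * ‖y‖ ≤ 12 * P.cnorm * ρ := mul_le_mul_of_nonneg_left hy (by positivity)
  linarith

/-- the nonlinear part is a small Lipschitz map on a small ball. -/
theorem pm_nonlin_lipschitz {ρ : ℝ} (hρ : ρ ≤ 1 / 2) (a b : CE (Fin n)) (ha : ‖a‖ ≤ ρ) (hb : ‖b‖ ≤ ρ) :
    ‖(P.ev a - fderiv ℂ P.ev 0 a) - (P.ev b - fderiv ℂ P.ev 0 b)‖ ≤ 12 * P.cnorm * ρ * ‖a - b‖ := by
  have hc := P.cnorm_nonneg
  have hd : ∀ y, HasFDerivAt (fun z => P.ev z - fderiv ℂ P.ev 0 z) (fderiv ℂ P.ev y - fderiv ℂ P.ev 0) y :=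
    fun y => (P.ev_differentiable y).hasFDerivAt.sub (fderiv ℂ P.ev 0).hasFDerivAt
  refine (convex_closedBall (0 : CE (Fin n)) ρ).norm_image_sub_le_of_norm_hasFDerivWithin_le (𝕜 := ℂ)
    (f := fun z => P.ev z - fderiv ℂ P.ev 0 z)
    (fun y _ => (hd y).hasFDerivWithinAt) (fun y hy => ?_) (mem_closedBall_zero_iff.2 hb) (mem_closedBall_zero_iff.2 ha)
  rw [mem_closedBall_zero_iff] at hy
  exact (P.norm_fderiv_sub_le (hy.trans hρ)).trans (mul_le_mul_of_nonneg_left hy (by positivity))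

/-- lower Lipschitz bound on a small ball (integrate only the nonlinear part). -/
theorem lower_lipschitz_small {ρ K : ℝ} (hρ : ρ ≤ 1 / 2) (hK0 : 0 ≤ K)
    (hK : ∀ v, ‖v‖ ≤ K * ‖fderiv ℂ P.ev 0 v‖) (a b : CE (Fin n)) (ha : ‖a‖ ≤ ρ) (hb : ‖b‖ ≤ ρ) :
    ‖a - b‖ ≤ K * (‖P.ev a - P.ev b‖ + 12 * P.cnorm * ρ * ‖a - b‖) := by
  refine (hK (a - b)).trans (mul_le_mul_of_nonneg_left ?_ hK0)
  have h1 := P.pm_nonlin_lipschitz hρ a b ha hb
  have h2 : fderiv ℂ P.ev 0 (a - b) =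
      (P.ev a - P.ev b) - ((P.ev a - fderiv ℂ P.ev 0 a) - (P.ev b - fderiv ℂ P.ev 0 b)) := by
    rw [map_sub]; abel
  rw [h2]
  exact (norm_sub_le _ _).trans (by linarith)

theorem lower_fderiv_small {ρ K : ℝ} (hρ : ρ ≤ 1 / 2) (hK0 : 0 ≤ K)
    (hK : ∀ v, ‖v‖ ≤ K * ‖fderiv ℂ P.ev 0 v‖) (y : CE (Fin n)) (hy : ‖y‖ ≤ ρ) (v : CE (Fin n)) :
    ‖v‖ ≤ K * (‖fderiv ℂ P.ev y v‖ + 12 * P.cnorm * ρ * ‖v‖) := by
  have hc := P.cnorm_nonneg
  refine (hK v).trans (mul_le_mul_of_nonneg_left ?_ hK0)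
  have h1 := P.norm_fderiv_sub_le (hy.trans hρ)
  have h2 : fderiv ℂ P.ev 0 v = fderiv ℂ P.ev y v - (fderiv ℂ P.ev y - fderiv ℂ P.ev 0) v := by
    rw [sub_apply]; abel
  rw [h2]
  refine (norm_sub_le _ _).trans ?_
  have h3 := (fderiv ℂ P.ev y - fderiv ℂ P.ev 0).le_opNorm v
  have h4 : ‖fderiv ℂ P.ev y - fderiv ℂ P.ev 0‖ * ‖v‖ ≤ 12 * P.cnorm * ρ * ‖v‖ :=
    mul_le_mul_of_nonneg_right (h1.trans (mul_le_mul_of_nonneg_left hy (by positivity))) (norm_nonneg _)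
  linarith

/-- chain rule for a left inverse. -/
theorem pm_fderiv_comp_eq_id {G Gi : PMap n} (hl : ∀ z, Gi.ev (G.ev z) = z) (z v : CE (Fin n)) :
    fderiv ℂ Gi.ev (G.ev z) (fderiv ℂ G.ev z v) = v := by
  have h1 : HasFDerivAt (Gi.ev ∘ G.ev) ((fderiv ℂ Gi.ev (G.ev z)).comp (fderiv ℂ G.ev z)) z :=
    (Gi.ev_differentiable (G.ev z)).hasFDerivAt.comp z (G.ev_differentiable z).hasFDerivAt
  have h2 : Gi.ev ∘ G.ev = id := funext hl
  rw [h2] at h1
  have h3 := h1.unique (hasFDerivAt_id z)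
  have := congrArg (fun L : CE (Fin n) →L[ℂ] CE (Fin n) => L v) h3
  simpa using this

/-- linear part of the inverse. -/
theorem norm_fderiv_inv_le {G Gi : PMap n} (h0 : G.ev 0 = 0) (hl : ∀ z, Gi.ev (G.ev z) = z)
    (hr : ∀ z, G.ev (Gi.ev z) = z) {K : ℝ} (hK0 : 0 ≤ K) (hK : ∀ v, ‖v‖ ≤ K * ‖fderiv ℂ G.ev 0 v‖) :
    ‖fderiv ℂ Gi.ev 0‖ ≤ K := by
  have hi0 : Gi.ev 0 = 0 := by
    have := hl 0
    rwa [h0] at this
  refine ContinuousLinearMap.opNorm_le_bound _ hK0 fun v => ?_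
  have h1 := hK (fderiv ℂ Gi.ev 0 v)
  have h2 := pm_fderiv_comp_eq_id hr 0 v
  rw [hi0] at h2
  rwa [h2] at h1

/-- the derivative of a polynomial automorphism is injective. -/
theorem fderiv_injective_of_leftInverse {G Gi : PMap n} (hl : ∀ z, Gi.ev (G.ev z) = z) (z : CE (Fin n)) :
    Function.Injective (fderiv ℂ G.ev z) :=
  Function.LeftInverse.injective (g := fderiv ℂ Gi.ev (G.ev z)) (pm_fderiv_comp_eq_id hl z)

/-- the reversed polynomial `λ ↦ λ^m P (λ⁻¹ z)`, `m = deg P`. -/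
noncomputable def pmRev (z : CE (Fin n)) (t : ℂ) : CE (Fin n) :=
  WithLp.toLp 2 fun i => ∑ d ∈ (P i).support, (P i).coeff d * t ^ (P.deg - ∑ j, d j) * ∏ j, z j ^ d j

theorem pmRev_differentiable (z : CE (Fin n)) : Differentiable ℂ (P.pmRev z) := by
  rw [differentiable_euclidean]
  intro i
  simp only [pmRev]
  refine Differentiable.fun_sum fun d _ => ?_
  exact ((differentiable_const _).mul (differentiable_id.pow _)).mul (differentiable_const _)

theorem pmRev_eq (z : CE (Fin n)) {t : ℂ} (ht : t ≠ 0) : P.pmRev z t = t ^ P.deg • P.ev (t⁻¹ • z) := by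
  ext i
  simp only [pmRev, PiLp.smul_apply, smul_eq_mul, ev_apply]
  rw [MvPolynomial.eval_eq', Finset.mul_sum]
  refine Finset.sum_congr rfl fun d hd => ?_
  have hdeg : ∑ j, d j ≤ P.deg := by
    have := MvPolynomial.le_totalDegree hd
    rw [Finsupp.sum_fintype _ _ (fun _ => rfl)] at this
    exact this.trans (Finset.le_sup (f := fun i => (P i).totalDegree) (Finset.mem_univ i))
  have h1 : ∏ j, (t⁻¹ * z j) ^ d j = (t⁻¹) ^ (∑ j, d j) * ∏ j, z j ^ d j := by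
    simp only [mul_pow]
    rw [Finset.prod_mul_distrib, Finset.prod_pow_eq_pow_sum]
  rw [h1, pow_sub₀ t ht hdeg, inv_pow]
  ring

/-- **(9.15) polynomial growth** (Bernstein-Walsh): on the line `t ↦ t e`, `|e| = 1`, apply the maximum principle on
`|λ| ≤ 1/R1` to `λ ↦ λ^m P (λ⁻¹ e)`, which is a polynomial in `λ` (`m = deg P`). -/
theorem growth {R1 R2 M : ℝ} (hR1 : 0 < R1) (hR : R1 ≤ R2) (hM : ∀ z, ‖z‖ ≤ R1 → ‖P.ev z‖ ≤ M) :
    ∀ z, ‖z‖ ≤ R2 → ‖P.ev z‖ ≤ (R2 / R1) ^ P.deg * M := by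
  intro z hz
  have hM0 : 0 ≤ M := (norm_nonneg _).trans (hM 0 (by simpa using hR1.le))
  have hq1 : 1 ≤ R2 / R1 := by rw [le_div_iff₀ hR1]; linarith
  rcases le_or_gt ‖z‖ R1 with h1 | h1
  · calc ‖P.ev z‖ ≤ M := hM z h1
      _ = 1 * M := (one_mul M).symm
      _ ≤ (R2 / R1) ^ P.deg * M := mul_le_mul_of_nonneg_right (one_le_pow₀ hq1) hM0
  set ρ : ℝ := ‖z‖ / R1 with hρ
  have hρ1 : 1 < ρ := by rw [hρ, lt_div_iff₀ hR1]; linarith
  have hρ0 : 0 < ρ := by linarith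
  have hb : ∀ t ∈ frontier (Metric.ball (0 : ℂ) ρ), ‖P.pmRev z t‖ ≤ ρ ^ P.deg * M := by
    intro t ht
    rw [frontier_ball (0 : ℂ) hρ0.ne', mem_sphere_zero_iff_norm] at ht
    have ht0 : t ≠ 0 := by
      rintro rfl
      rw [norm_zero] at ht
      linarith
    rw [P.pmRev_eq z ht0, norm_smul, norm_pow, ht]
    refine mul_le_mul_of_nonneg_left (hM _ ?_) (by positivity)
    rw [norm_smul, norm_inv, ht, hρ]
    have hz0 : 0 < ‖z‖ := by linarith
    apply le_of_eq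
    field_simp
  have h2 := Complex.norm_le_of_forall_mem_frontier_norm_le (Metric.isBounded_ball (x := (0 : ℂ)) (r := ρ))
    (P.pmRev_differentiable z).diffContOnCl hb (z := 1)
    (by rw [closure_ball (0 : ℂ) hρ0.ne', mem_closedBall_zero_iff]; simpa using hρ1.le)
  rw [P.pmRev_eq z one_ne_zero] at h2
  simp only [one_pow, inv_one, one_smul] at h2
  refine h2.trans (mul_le_mul_of_nonneg_right ?_ hM0)
  exact pow_le_pow_left₀ hρ0.le (div_le_div_of_nonneg_right hz hR1.le) _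

end PMap

end Claimed.Agent.R316
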