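import Mathlib

/-!
# Row 316, S10: the abstract shadowing lemma (Lemma 9.1 of the paper, `lem:unif:backward-limit`)

Owner: helper84 (statements).  PAPER FREE, no other import than Mathlib.  Leaves: S10-SH-A (`bw`, `fw` algebra), S10-SH-B (the estimates): PROVED (helper84), this file is sorry free.

`X` normed space, `G k`, `Gi k : X → X` with `Gi k ∘ G k = id`.  `bw Gi k l = Gi k ∘ ⋯ ∘ Gi (l-1)` (`= G_{k,l}⁻¹`),
`fw G k = G (k-1) ∘ ⋯ ∘ G 0` (`= G_{0,k}`, the same expression as in `PolyModels.fw_deg`).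

Proof of `shadow_close` (no geometric series): downward induction on `k` (i.e. induction on `l - k`) with the budget `A k = e^{-6 s k}`:
`|bw k l ζ_l - ζ_k| = |Gi k (bw (k+1) l ζ_l) - Gi k (G k ζ_k)| ≤ e^{Δ}(A (k+1) + e^{-10 s k}) ≤ A k`, both arguments being in the tube by `tube`.
`shadow_step`: the same induction, `|bw k (l+1) ζ_{l+1} - bw k l ζ_l| ≤ e^{s l - s k} |Gi l ζ_{l+1} - Gi l (G l ζ_l)|`.
`shadow_rate`: `e^{-10 s l + s (l+1)} ≤ e^{-8 s l} - e^{-8 s (l+1)}`, telescoping.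
-/

set_option autoImplicit false
open scoped Topology
open Filter

namespace Claimed.Agent.R316.S10

variable {X : Type}

/-- backward composition `Gi k ∘ ⋯ ∘ Gi (l-1)` (identity for `l ≤ k`). -/
def bw (Gi : ℕ → X → X) (k : ℕ) : ℕ → X → X
  | 0 => id
  | l + 1 => if k ≤ l then bw Gi k l ∘ Gi l else id

/-- forward composition `G (k-1) ∘ ⋯ ∘ G 0`. -/
def fw (G : ℕ → X → X) (k : ℕ) (z : X) : X := (List.range k).foldl (fun y i => G i y) z

section algebra

variable {G Gi : ℕ → X → X}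

theorem bw_of_le {k l : ℕ} (h : l ≤ k) (x : X) : bw Gi k l x = x := by
  cases l with
  | zero => rfl
  | succ l =>
    have : ¬ k ≤ l := by omega
    simp [bw, this]

theorem bw_self (k : ℕ) (x : X) : bw Gi k k x = x := bw_of_le le_rfl x

theorem bw_succ {k l : ℕ} (h : k ≤ l) (x : X) : bw Gi k (l + 1) x = bw Gi k l (Gi l x) := by
  simp [bw, h]

theorem bw_succ_left {k l : ℕ} (h : k < l) (x : X) : bw Gi k l x = Gi k (bw Gi (k + 1) l x) := by
  induction l generalizing x with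
  | zero => omega
  | succ l ih =>
    rcases Nat.lt_or_ge k l with h1 | h1
    · rw [bw_succ h1.le, bw_succ (by omega : k + 1 ≤ l), ih h1]
    · have : k = l := by omega
      subst this
      rw [bw_succ le_rfl, bw_self, bw_self]

theorem bw_comp {j k l : ℕ} (h1 : j ≤ k) (h2 : k ≤ l) (x : X) : bw Gi j l x = bw Gi j k (bw Gi k l x) := by
  induction l generalizing x with
  | zero =>
    have : k = 0 := by omega
    subst this
    rfl
  | succ l ih =>
    rcases Nat.lt_or_ge l k with h3 | h3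
    · have : k = l + 1 := by omega
      subst this
      rw [bw_self]
    · rw [bw_succ (h1.trans h3), bw_succ h3, ih h3]

theorem fw_zero (z : X) : fw G 0 z = z := rfl

theorem fw_succ (k : ℕ) (z : X) : fw G (k + 1) z = G k (fw G k z) := by
  simp [fw, List.range_succ]

theorem bw_fw (hl : ∀ k x, Gi k (G k x) = x) (k : ℕ) (x : X) : bw Gi 0 k (fw G k x) = x := by
  induction k with
  | zero => rfl
  | succ k ih => rw [bw_succ (Nat.zero_le _), fw_succ, hl, ih]

theorem fw_bw (hr : ∀ k x, G k (Gi k x) = x) (k : ℕ) (x : X) : fw G k (bw Gi 0 k x) = x := by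
  induction k generalizing x with
  | zero => rfl
  | succ k ih => rw [bw_succ (Nat.zero_le _), fw_succ, ih, hr]

theorem fw_injective (hl : ∀ k x, Gi k (G k x) = x) (k : ℕ) : Function.Injective (fw G k) :=
  Function.LeftInverse.injective (g := bw Gi 0 k) (bw_fw hl k)

theorem bw_continuous [TopologicalSpace X] (h : ∀ k, Continuous (Gi k)) (k l : ℕ) : Continuous (bw Gi k l) := by
  induction l with
  | zero => exact continuous_id
  | succ l ih =>
    by_cases hk : k ≤ l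
    · have : bw Gi k (l + 1) = bw Gi k l ∘ Gi l := by simp [bw, hk]
      rw [this]; exact ih.comp (h l)
    · have : bw Gi k (l + 1) = id := by simp [bw, hk]
      rw [this]; exact continuous_id

theorem fw_continuous [TopologicalSpace X] (h : ∀ k, Continuous (G k)) (k : ℕ) : Continuous (fw G k) := by
  induction k with
  | zero => exact continuous_id
  | succ k ih =>
    have : fw G (k + 1) = G k ∘ fw G k := by funext z; exact fw_succ k z
    rw [this]; exact (h k).comp ih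

theorem bw_differentiable [NormedAddCommGroup X] [NormedSpace ℂ X] (h : ∀ k, Differentiable ℂ (Gi k)) (k l : ℕ) :
    Differentiable ℂ (bw Gi k l) := by
  induction l with
  | zero => exact differentiable_id
  | succ l ih =>
    by_cases hk : k ≤ l
    · have : bw Gi k (l + 1) = bw Gi k l ∘ Gi l := by simp [bw, hk]
      rw [this]; exact ih.comp (h l)
    · have : bw Gi k (l + 1) = id := by simp [bw, hk]
      rw [this]; exact differentiable_id

theorem fw_differentiable [NormedAddCommGroup X] [NormedSpace ℂ X] (h : ∀ k, Differentiable ℂ (G k)) (k : ℕ) :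
    Differentiable ℂ (fw G k) := by
  induction k with
  | zero => exact differentiable_id
  | succ k ih =>
    have : fw G (k + 1) = G k ∘ fw G k := by funext z; exact fw_succ k z
    rw [this]; exact (h k).comp ih

theorem bw_fix [Zero X] (h : ∀ k, Gi k 0 = 0) (k l : ℕ) : bw Gi k l 0 = 0 := by
  induction l with
  | zero => rfl
  | succ l ih =>
    by_cases hk : k ≤ l
    · rw [bw_succ hk, h, ih]
    · exact bw_of_le (by omega) 0

theorem fw_fix [Zero X] (h : ∀ k, G k 0 = 0) (k : ℕ) : fw G k 0 = 0 := by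
  induction k with
  | zero => rfl
  | succ k ih => rw [fw_succ, ih, h]

end algebra

variable [NormedAddCommGroup X]

/-- the hypotheses on the models from the index `k0` on: (9.9) and the numerical facts on the grid. -/
structure ShadowHyp (G Gi : ℕ → X → X) (s : ℕ → ℝ) (ν : ℝ) (k0 : ℕ) : Prop where
  left : ∀ k x, Gi k (G k x) = x
  right : ∀ k x, G k (Gi k x) = x
  cont : ∀ k, Continuous (Gi k)
  /-- (9.9) -/
  lip : ∀ k, k0 ≤ k → ∀ a b : X, ‖a‖ ≤ Real.exp (-(ν * s (k + 1))) → ‖b‖ ≤ Real.exp (-(ν * s (k + 1))) →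
    ‖Gi k a - Gi k b‖ ≤ Real.exp (s (k + 1) - s k) * ‖a - b‖
  s_ge : ∀ k, k0 ≤ k → 1 ≤ s k
  step_ge : ∀ k, k0 ≤ k → 1 ≤ s (k + 1) - s k
  step_le : ∀ k, k0 ≤ k → s (k + 1) - s k ≤ s k / 10
  tube : ∀ k, k0 ≤ k → Real.exp (-(2 * ν * s (k + 1))) + Real.exp (-(6 * s k)) ≤ Real.exp (-(ν * s (k + 1)))

/-- admissible pseudo-orbit from the index `k` on: (9.6) and (9.8). -/
def Adm (G : ℕ → X → X) (s : ℕ → ℝ) (ν : ℝ) (k : ℕ) (ζ : ℕ → X) : Prop :=
  ∀ i, k ≤ i → ‖ζ i‖ ≤ Real.exp (-(2 * ν * s i)) ∧ ‖ζ (i + 1) - G i (ζ i)‖ ≤ Real.exp (-(10 * s i))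

/-- the corrected coordinate `ξ_k = lim_l G_{k,l}⁻¹ ζ_l`. -/
noncomputable def xi (Gi : ℕ → X → X) (k : ℕ) (ζ : ℕ → X) : X :=
  limUnder atTop fun l => bw Gi k l (ζ l)

theorem Adm.mono {G : ℕ → X → X} {s : ℕ → ℝ} {ν : ℝ} {k k' : ℕ} {ζ : ℕ → X} (h : Adm G s ν k ζ) (hk : k ≤ k') :
    Adm G s ν k' ζ := fun i hi => h i (hk.trans hi)

/-- `ξ` only depends on the tail of the pseudo-orbit. -/
theorem xi_congr {Gi : ℕ → X → X} {k : ℕ} {ζ ζ' : ℕ → X} (h : ∀ᶠ l in atTop, ζ l = ζ' l) :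
    xi Gi k ζ = xi Gi k ζ' := by
  have h' : (fun l => bw Gi k l (ζ l)) =ᶠ[atTop] fun l => bw Gi k l (ζ' l) := by
    filter_upwards [h] with l hl
    rw [hl]
  simp only [xi, limUnder]
  rw [Filter.map_congr h']

/-! numerical lemmas -/

theorem sh_exp_neg_le {x : ℝ} (hx : 0 ≤ x) : Real.exp (-x) ≤ 1 / (1 + x) := by
  rw [Real.exp_neg, ← one_div]
  exact one_div_le_one_div_of_le (by linarith) (by linarith [Real.add_one_le_exp x])

theorem sh_num_close {s s' : ℝ} (hs : 1 ≤ s) (h1 : 1 ≤ s' - s) (h2 : s' - s ≤ s / 10) :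
    Real.exp (s' - s) * (Real.exp (-(6 * s')) + Real.exp (-(10 * s))) ≤ Real.exp (-(6 * s)) := by
  have e1 : Real.exp (s' - s) * Real.exp (-(6 * s')) = Real.exp (-(6 * s)) * Real.exp (-(5 * (s' - s))) := by
    rw [← Real.exp_add, ← Real.exp_add]; congr 1; ring
  have e2 : Real.exp (s' - s) * Real.exp (-(10 * s)) = Real.exp (-(6 * s)) * Real.exp (-(4 * s - (s' - s))) := by
    rw [← Real.exp_add, ← Real.exp_add]; congr 1; ring
  have b1 : Real.exp (-(5 * (s' - s))) ≤ 1 / 2 := by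
    refine (Real.exp_le_exp.2 (by linarith : -(5 * (s' - s)) ≤ -1)).trans ?_
    have := sh_exp_neg_le (x := 1) (by norm_num)
    norm_num at this ⊢
    exact this
  have b2 : Real.exp (-(4 * s - (s' - s))) ≤ 1 / 2 := by
    refine (Real.exp_le_exp.2 (by linarith : -(4 * s - (s' - s)) ≤ -1)).trans ?_
    have := sh_exp_neg_le (x := 1) (by norm_num)
    norm_num at this ⊢
    exact this
  rw [mul_add, e1, e2, ← mul_add]
  have hp := Real.exp_pos (-(6 * s))
  nlinarith

theorem sh_num_rate {s s' sk : ℝ} (hs : 1 ≤ s) (h1 : 1 ≤ s' - s) (h2 : s' - s ≤ s / 10) (hk : 0 ≤ sk) :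
    Real.exp (-(10 * s) + s' - sk) ≤ Real.exp (-(8 * s)) - Real.exp (-(8 * s')) := by
  have e1 : Real.exp (-(10 * s) + s' - sk) ≤ Real.exp (-(8 * s)) * Real.exp (-(9 / 10)) := by
    rw [← Real.exp_add]
    exact Real.exp_le_exp.2 (by linarith)
  have e2 : Real.exp (-(8 * s')) ≤ Real.exp (-(8 * s)) * Real.exp (-8) := by
    rw [← Real.exp_add]
    exact Real.exp_le_exp.2 (by linarith)
  have b1 : Real.exp (-(9 / 10 : ℝ)) ≤ 10 / 19 := by
    have := sh_exp_neg_le (x := 9 / 10) (by norm_num)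
    norm_num at this ⊢
    exact this
  have b2 : Real.exp (-8 : ℝ) ≤ 1 / 9 := by
    have := sh_exp_neg_le (x := 8) (by norm_num)
    norm_num at this ⊢
    exact this
  have hp := Real.exp_pos (-(8 * s))
  nlinarith

variable {G Gi : ℕ → X → X} {s : ℕ → ℝ} {ν : ℝ} {k0 k : ℕ} {ζ : ℕ → X}

theorem ShadowHyp.s_le_succ (H : ShadowHyp G Gi s ν k0) {j : ℕ} (hj : k0 ≤ j) : s j ≤ s (j + 1) := by
  have := H.step_ge j hj
  linarith

theorem ShadowHyp.s_add_ge (H : ShadowHyp G Gi s ν k0) {j : ℕ} (hj : k0 ≤ j) (d : ℕ) : 1 + (d : ℝ) ≤ s (j + d) := by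
  induction d with
  | zero => simpa using H.s_ge j hj
  | succ d ih =>
    have := H.step_ge (j + d) (by omega)
    rw [← add_assoc]
    push_cast
    linarith

/-- points close to `ζ (j+1)` are in the tube of index `j`. -/
theorem ShadowHyp.in_tube (H : ShadowHyp G Gi s ν k0) {j : ℕ} (hj : k0 ≤ j) {x y : X}
    (hy : ‖y‖ ≤ Real.exp (-(2 * ν * s (j + 1)))) (hx : ‖x - y‖ ≤ Real.exp (-(6 * s j))) :
    ‖x‖ ≤ Real.exp (-(ν * s (j + 1))) := by
  have h1 : ‖x‖ ≤ ‖x - y‖ + ‖y‖ := by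
    have := norm_add_le (x - y) y
    rwa [sub_add_cancel] at this
  have := H.tube j hj
  linarith

theorem sh_close_aux (H : ShadowHyp G Gi s ν k0) (d : ℕ) : ∀ k, k0 ≤ k → Adm G s ν k ζ →
    ‖bw Gi k (k + d) (ζ (k + d)) - ζ k‖ ≤ Real.exp (-(6 * s k)) := by
  induction d with
  | zero =>
    intro k _ _
    rw [add_zero, bw_self, sub_self, norm_zero]
    exact (Real.exp_pos _).le
  | succ d ih =>
    intro k hk hζ
    have hk1 : k0 ≤ k + 1 := by omega
    have ih' := ih (k + 1) hk1 (hζ.mono (Nat.le_succ k))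
    have hidx : k + 1 + d = k + (d + 1) := by omega
    rw [hidx] at ih'
    rw [bw_succ_left (by omega : k < k + (d + 1))]
    have hss := H.s_le_succ hk
    have hz1 := (hζ (k + 1) (Nat.le_succ k)).1
    have hz2 := (hζ k le_rfl).2
    have ha : ‖bw Gi (k + 1) (k + (d + 1)) (ζ (k + (d + 1)))‖ ≤ Real.exp (-(ν * s (k + 1))) :=
      H.in_tube hk hz1 (ih'.trans (Real.exp_le_exp.2 (by linarith)))
    have hb : ‖G k (ζ k)‖ ≤ Real.exp (-(ν * s (k + 1))) := by
      refine H.in_tube hk hz1 ?_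
      rw [norm_sub_rev]
      exact hz2.trans (Real.exp_le_exp.2 (by have := H.s_ge k hk; linarith))
    have hl := H.lip k hk _ _ ha hb
    rw [H.left] at hl
    have hab : ‖bw Gi (k + 1) (k + (d + 1)) (ζ (k + (d + 1))) - G k (ζ k)‖ ≤
        Real.exp (-(6 * s (k + 1))) + Real.exp (-(10 * s k)) := by
      have := norm_sub_le_norm_sub_add_norm_sub (bw Gi (k + 1) (k + (d + 1)) (ζ (k + (d + 1)))) (ζ (k + 1)) (G k (ζ k))
      linarith
    calc _ ≤ Real.exp (s (k + 1) - s k) * ‖bw Gi (k + 1) (k + (d + 1)) (ζ (k + (d + 1))) - G k (ζ k)‖ := hl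
      _ ≤ Real.exp (s (k + 1) - s k) * (Real.exp (-(6 * s (k + 1))) + Real.exp (-(10 * s k))) :=
          mul_le_mul_of_nonneg_left hab (Real.exp_pos _).le
      _ ≤ _ := sh_num_close (H.s_ge k hk) (H.step_ge k hk) (H.step_le k hk)

/-- (9.11). -/
theorem shadow_close (H : ShadowHyp G Gi s ν k0) (hk : k0 ≤ k) (hζ : Adm G s ν k ζ) :
    ∀ l, k ≤ l → ‖bw Gi k l (ζ l) - ζ k‖ ≤ Real.exp (-(6 * s k)) := by
  intro l hl
  obtain ⟨d, rfl⟩ := Nat.exists_eq_add_of_le hl
  exact sh_close_aux H d k hk hζ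

theorem sh_step_aux (H : ShadowHyp G Gi s ν k0) (d : ℕ) : ∀ k, k0 ≤ k → Adm G s ν k ζ →
    ‖bw Gi k (k + d + 1) (ζ (k + d + 1)) - bw Gi k (k + d) (ζ (k + d))‖ ≤
      Real.exp (-(10 * s (k + d)) + s (k + d + 1) - s k) := by
  induction d with
  | zero =>
    intro k hk hζ
    rw [add_zero, bw_succ le_rfl, bw_self, bw_self]
    have hz1 := (hζ (k + 1) (Nat.le_succ k)).1
    have hz2 := (hζ k le_rfl).2
    have ha : ‖ζ (k + 1)‖ ≤ Real.exp (-(ν * s (k + 1))) :=
      H.in_tube hk hz1 (by rw [sub_self, norm_zero]; exact (Real.exp_pos _).le)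
    have hb : ‖G k (ζ k)‖ ≤ Real.exp (-(ν * s (k + 1))) := by
      refine H.in_tube hk hz1 ?_
      rw [norm_sub_rev]
      exact hz2.trans (Real.exp_le_exp.2 (by have := H.s_ge k hk; linarith))
    have hl := H.lip k hk _ _ ha hb
    rw [H.left] at hl
    calc _ ≤ Real.exp (s (k + 1) - s k) * ‖ζ (k + 1) - G k (ζ k)‖ := hl
      _ ≤ Real.exp (s (k + 1) - s k) * Real.exp (-(10 * s k)) :=
          mul_le_mul_of_nonneg_left hz2 (Real.exp_pos _).le
      _ = _ := by rw [← Real.exp_add]; congr 1; ring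
  | succ d ih =>
    intro k hk hζ
    have hk1 : k0 ≤ k + 1 := by omega
    have hζ1 := hζ.mono (Nat.le_succ k)
    have ih' := ih (k + 1) hk1 hζ1
    have hidx : k + 1 + d = k + (d + 1) := by omega
    rw [hidx] at ih'
    rw [bw_succ_left (by omega : k < k + (d + 1) + 1), bw_succ_left (by omega : k < k + (d + 1))]
    have hss := H.s_le_succ hk
    have hz1 := (hζ (k + 1) (Nat.le_succ k)).1
    have ha : ‖bw Gi (k + 1) (k + (d + 1) + 1) (ζ (k + (d + 1) + 1))‖ ≤ Real.exp (-(ν * s (k + 1))) :=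
      H.in_tube hk hz1 ((shadow_close H hk1 hζ1 _ (by omega)).trans (Real.exp_le_exp.2 (by linarith)))
    have hb : ‖bw Gi (k + 1) (k + (d + 1)) (ζ (k + (d + 1)))‖ ≤ Real.exp (-(ν * s (k + 1))) :=
      H.in_tube hk hz1 ((shadow_close H hk1 hζ1 _ (by omega)).trans (Real.exp_le_exp.2 (by linarith)))
    have hl := H.lip k hk _ _ ha hb
    calc _ ≤ Real.exp (s (k + 1) - s k) * _ := hl
      _ ≤ Real.exp (s (k + 1) - s k) *
          Real.exp (-(10 * s (k + (d + 1))) + s (k + (d + 1) + 1) - s (k + 1)) :=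
          mul_le_mul_of_nonneg_left ih' (Real.exp_pos _).le
      _ = _ := by rw [← Real.exp_add]; congr 1; ring

theorem shadow_step (H : ShadowHyp G Gi s ν k0) (hk : k0 ≤ k) (hζ : Adm G s ν k ζ) :
    ∀ l, k ≤ l → ‖bw Gi k (l + 1) (ζ (l + 1)) - bw Gi k l (ζ l)‖ ≤ Real.exp (-(10 * s l) + s (l + 1) - s k) := by
  intro l hl
  obtain ⟨d, rfl⟩ := Nat.exists_eq_add_of_le hl
  exact sh_step_aux H d k hk hζ

/-- telescoped form. -/
theorem sh_tele (H : ShadowHyp G Gi s ν k0) (hk : k0 ≤ k) (hζ : Adm G s ν k ζ) {l : ℕ} (hl : k ≤ l) (d : ℕ) :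
    ‖bw Gi k (l + d) (ζ (l + d)) - bw Gi k l (ζ l)‖ ≤ Real.exp (-(8 * s l)) - Real.exp (-(8 * s (l + d))) := by
  induction d with
  | zero => simp
  | succ d ih =>
    have h1 := shadow_step H hk hζ (l + d) (by omega)
    have hj : k0 ≤ l + d := by omega
    have h2 := sh_num_rate (sk := s k) (H.s_ge _ hj) (H.step_ge _ hj) (H.step_le _ hj)
      (by have := H.s_ge k hk; linarith)
    have h3 := norm_sub_le_norm_sub_add_norm_sub (bw Gi k (l + d + 1) (ζ (l + d + 1))) (bw Gi k (l + d) (ζ (l + d)))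
      (bw Gi k l (ζ l))
    rw [← add_assoc]
    linarith

variable [CompleteSpace X]

theorem shadow_tendsto (H : ShadowHyp G Gi s ν k0) (hk : k0 ≤ k) (hζ : Adm G s ν k ζ) :
    Tendsto (fun l => bw Gi k l (ζ l)) atTop (𝓝 (xi Gi k ζ)) := by
  have hc : CauchySeq fun j => bw Gi k (k + j) (ζ (k + j)) := by
    refine cauchySeq_of_le_geometric (Real.exp (-1)) 1 (by rw [Real.exp_lt_one_iff]; norm_num) fun j => ?_
    rw [dist_comm, dist_eq_norm, one_mul, ← Real.exp_nat_mul]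
    have h1 := shadow_step H hk hζ (k + j) (by omega)
    refine h1.trans (Real.exp_le_exp.2 ?_)
    have hj : k0 ≤ k + j := by omega
    have h2 := H.step_le _ hj
    have h3 := H.s_add_ge hk j
    have h4 := H.s_ge k hk
    linarith
  obtain ⟨x, hx⟩ := cauchySeq_tendsto_of_complete hc
  have hx' : Tendsto (fun l => bw Gi k l (ζ l)) atTop (𝓝 x) := by
    rw [← tendsto_add_atTop_iff_nat k]
    simpa [add_comm] using hx
  rw [xi, hx'.limUnder_eq]
  exact hx'

/-- uniform rate of convergence. -/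
theorem shadow_rate (H : ShadowHyp G Gi s ν k0) (hk : k0 ≤ k) (hζ : Adm G s ν k ζ) :
    ∀ l, k ≤ l → ‖bw Gi k l (ζ l) - xi Gi k ζ‖ ≤ Real.exp (-(8 * s l)) := by
  intro l hl
  have ht := shadow_tendsto H hk hζ
  have h1 : Tendsto (fun m => ‖bw Gi k m (ζ m) - bw Gi k l (ζ l)‖) atTop (𝓝 ‖xi Gi k ζ - bw Gi k l (ζ l)‖) :=
    (ht.sub_const _).norm
  rw [norm_sub_rev]
  refine le_of_tendsto h1 ?_
  filter_upwards [eventually_ge_atTop l] with m hm
  obtain ⟨d, rfl⟩ := Nat.exists_eq_add_of_le hm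
  have := sh_tele H hk hζ hl d
  have hp := Real.exp_pos (-(8 * s (l + d)))
  linarith

/-- (9.10), first half. -/
theorem shadow_xi_close (H : ShadowHyp G Gi s ν k0) (hk : k0 ≤ k) (hζ : Adm G s ν k ζ) :
    ‖xi Gi k ζ - ζ k‖ ≤ Real.exp (-(6 * s k)) := by
  have ht := shadow_tendsto H hk hζ
  refine le_of_tendsto (ht.sub_const _).norm ?_
  filter_upwards [eventually_ge_atTop k] with l hl
  exact shadow_close H hk hζ l hl

theorem sh_tendsto_zero_aux (H : ShadowHyp G Gi s ν k0) (hk : k0 ≤ k) (hζ : Adm G s ν k ζ) :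
    Tendsto (fun l => bw Gi 0 l (ζ l)) atTop (𝓝 (bw Gi 0 k (xi Gi k ζ))) := by
  have ht := shadow_tendsto H hk hζ
  have h1 := ((bw_continuous H.cont 0 k).tendsto _).comp ht
  refine h1.congr' ?_
  filter_upwards [eventually_ge_atTop k] with l hl
  exact (bw_comp (Nat.zero_le k) hl _).symm

/-- the limit from the index `0` exists too, and `G_{0,k} ξ_0 = ξ_k`. -/
theorem shadow_tendsto_zero (H : ShadowHyp G Gi s ν k0) (hk : k0 ≤ k) (hζ : Adm G s ν k ζ) :
    Tendsto (fun l => bw Gi 0 l (ζ l)) atTop (𝓝 (xi Gi 0 ζ)) := by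
  have h := sh_tendsto_zero_aux H hk hζ
  rw [xi, h.limUnder_eq]
  exact h

theorem shadow_fw_xi (H : ShadowHyp G Gi s ν k0) (hk : k0 ≤ k) (hζ : Adm G s ν k ζ) :
    fw G k (xi Gi 0 ζ) = xi Gi k ζ := by
  have h := sh_tendsto_zero_aux H hk hζ
  have : xi Gi 0 ζ = bw Gi 0 k (xi Gi k ζ) := h.limUnder_eq
  rw [this, fw_bw H.right]

end Claimed.Agent.R316.S10
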