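import Claimed.Agent.R316.S10.Orbit
import Claimed.Agent.R316.Pack003
import Claimed.Agent.R316.Pack024
import Claimed.Agent.R316.Pack009

/-!
# Row 316, S10: what Section 9 uses of the shrinking charts (`ChartSystem`)

Owner: helper84.  ALL PROVED (no open proof left in this file; uses helper248's `Tr7Lift` API and helper193's `g0_*` lemmas).  No distance function, no curve length: the two metric arguments of the paper (injectivity l.232-247,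
nonsingularity l.249-262) are carried out in ONE fixed holomorphic parametrisation `(Φ₀, U₀)`, where `g ≥ c · Eucl` on compact sets.
API of parametrisations / transition maps: `CM/Param.lean`, `CM/Trans.lean`, `CM/Top.lean` (helper55), `CW/Basic.lean` (`jac_mulVec`, ...).

Leaves: S10-CH-A (`locBihol_*`, `holTo_comp_locBihol`, `Φ_*`, `f_Φ`, `ev_raw_one`), S10-CH-B (`metric_lower_bound`, `trans_bound`, `df_lower`),
S10-CH-C (`trapping`).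

* `trans_bound`: `τ = Φ₀⁻¹ ∘ Φ_s`; `IsHForm.compat`: `g Φ_s z = Jᴴ (g Φ₀ (τ z)) J`, `J = jac τ z`; `g_bound` (with `K = Φ₀ '' K₀`) and
  `metric_lower_bound` give `c |J v|² ≤ C0 e^{2s} |v|²`.
* `df_lower`: `τ ∘ (f_s ∘ Φ₀) = id` near `w` (because `Φ_s ∘ f_s = id`), chain rule, `trans_bound`.
* `trapping`: continuity method on `A = {θ ∈ [0,1] : ∀ θ' ≤ θ, Φ (a + θ'(b-a)) ∈ Φ₀ '' closedBall z₀ (L |b-a|)}` (closed, open, contains `0`):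
  as long as the path stays in `Φ₀ '' closedBall z₀ ε`, its coordinate path `θ ↦ τ (a + θ (b - a))` has speed `≤ L |b - a|`.
* `f_Φ`: `Φ_u (F_{s,u} z) = Φ_s z = Φ_u (f_u (Φ_s z))`, both arguments tend to `0` as `z → 0` and `Φ_u` is injective near `0`; then `scv_eqOn_ball`.
-/

set_option autoImplicit false
open scoped ContDiff ComplexOrder Topology
open Filter

namespace Claimed.Agent.R316.S10

variable {V : Type} [NormedAddCommGroup V] [NormedSpace ℝ V]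
variable {n : ℕ} {𝓜 : CMfd V (Fin n)} {g : HFam V (Fin n)} {o : V}

/-! ### immersed charts -/

theorem locBihol_mem {Φ : CE (Fin n) → V} {B : Set (CE (Fin n))} (h : IsLocBihol 𝓜 Φ B) {z : CE (Fin n)} (hz : z ∈ B) :
    Φ z ∈ 𝓜.carrier := tr7_mem_carrier h hz

theorem locBihol_continuousOn {Φ : CE (Fin n) → V} {B : Set (CE (Fin n))} (h : IsLocBihol 𝓜 Φ B) :
    ContinuousOn Φ B := tr7_continuousOn h

/-- a holomorphic map on `𝓜.carrier ∩ Ω` is holomorphic in an immersed chart. -/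
theorem holTo_comp_locBihol {Φ : CE (Fin n) → V} {B : Set (CE (Fin n))} (h : IsLocBihol 𝓜 Φ B) {Ω : Set V}
    {f : V → CE (Fin n)} (hf : 𝓜.HolTo Ω f) : DifferentiableOn ℂ (f ∘ Φ) (B ∩ Φ ⁻¹' Ω) := by
  intro z hz
  obtain ⟨U, _, hzU, hU⟩ := h.2 z hz.1
  refine (hf Φ U hU z ⟨hzU, hz.2⟩).mono_of_mem_nhdsWithin ?_
  exact inter_mem (mem_nhdsWithin_of_mem_nhds ((CMfd.isOpen_dom hU).mem_nhds hzU))
    (mem_nhdsWithin.2 ⟨Set.univ, isOpen_univ, trivial, fun y hy => hy.2.2⟩)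

theorem locBihol_isOpen_preimage {Φ : CE (Fin n) → V} {B : Set (CE (Fin n))} (h : IsLocBihol 𝓜 Φ B) {Ω : Set V}
    (hΩ : IsOpen Ω) : IsOpen (B ∩ Φ ⁻¹' Ω) :=
  (locBihol_continuousOn h).isOpen_inter_preimage h.1 hΩ

/-- compact images. -/
theorem locBihol_isCompact_image {Φ : CE (Fin n) → V} {B : Set (CE (Fin n))} (h : IsLocBihol 𝓜 Φ B)
    {K : Set (CE (Fin n))} (hK : IsCompact K) (hKB : K ⊆ B) : IsCompact (Φ '' K) ∧ Φ '' K ⊆ 𝓜.carrier :=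
  ⟨hK.image_of_continuousOn ((locBihol_continuousOn h).mono hKB), by
    rintro _ ⟨z, hz, rfl⟩; exact locBihol_mem h (hKB hz)⟩

theorem isHol_isCompact_image {Φ : CE (Fin n) → V} {U : Set (CE (Fin n))} (h : 𝓜.IsHol Φ U)
    {K : Set (CE (Fin n))} (hK : IsCompact K) (hKU : K ⊆ U) : IsCompact (Φ '' K) ∧ Φ '' K ⊆ 𝓜.carrier :=
  ⟨hK.image_of_continuousOn ((𝓜.isParam h).continuousOn.mono hKU), by
    rintro _ ⟨z, hz, rfl⟩; exact CMfd.mem_carrier h (hKU hz)⟩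

/-! ### metric comparison in a fixed parametrisation -/

/-- a metric dominates a multiple of the Euclidean metric on compact subsets of a parametrisation. -/
theorem metric_lower_bound (hg : IsMetric 𝓜 g) {Φ₀ : CE (Fin n) → V} {U₀ K₀ : Set (CE (Fin n))}
    (h₀ : 𝓜.IsHol Φ₀ U₀) (hK : IsCompact K₀) (hKU : K₀ ⊆ U₀) :
    ∃ c : ℝ, 0 < c ∧ ∀ w ∈ K₀, ∀ v : CE (Fin n), c * ‖v‖ ^ 2 ≤ qf (g Φ₀ w) v := by
  refine hK.induction_on (p := fun S => ∃ c : ℝ, 0 < c ∧ ∀ w ∈ S, ∀ v : CE (Fin n), c * ‖v‖ ^ 2 ≤ qf (g Φ₀ w) v)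
    ⟨1, one_pos, fun w hw => hw.elim⟩ ?_ ?_ ?_
  · rintro S T hST ⟨c, hc, h⟩
    exact ⟨c, hc, fun w hw => h w (hST hw)⟩
  · rintro S T ⟨c, hc, h⟩ ⟨c', hc', h'⟩
    refine ⟨min c c', lt_min hc hc', ?_⟩
    rintro w (hw | hw) v
    · exact (mul_le_mul_of_nonneg_right (min_le_left _ _) (sq_nonneg _)).trans (h w hw v)
    · exact (mul_le_mul_of_nonneg_right (min_le_right _ _) (sq_nonneg _)).trans (h' w hw v)
  · intro w hw
    obtain ⟨c, C, hc, _, H⟩ := g0_norm_equiv (hg.posDef h₀ w (hKU hw))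
    have hp := 𝓜.isParam h₀
    have hcont : ContinuousAt (fun ζ => ∑ j, ∑ k, ‖(g Φ₀ ζ - g Φ₀ w) j k‖) w := by
      refine tendsto_finsetSum _ fun j _ => tendsto_finsetSum _ fun k _ => ?_
      have h1 : ContinuousAt (fun ζ => g Φ₀ ζ j k) w :=
        (hg.smooth h₀ j k).continuousOn.continuousAt (hp.isOpen.mem_nhds (hKU hw))
      exact (h1.sub continuousAt_const).norm
    have h0 : (fun ζ => ∑ j, ∑ k, ‖(g Φ₀ ζ - g Φ₀ w) j k‖) w < c ^ 2 / 2 := by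
      have : 0 < c ^ 2 / 2 := by positivity
      simpa using this
    refine ⟨_, mem_nhdsWithin_of_mem_nhds (hcont.eventually (gt_mem_nhds h0)), c ^ 2 / 2, by positivity, ?_⟩
    intro ζ hζ v
    have hζ' : ∑ j, ∑ k, ‖(g Φ₀ ζ - g Φ₀ w) j k‖ < c ^ 2 / 2 := hζ
    have h1 := g0_abs_qf_le (g Φ₀ ζ - g Φ₀ w) v
    rw [qf_sub] at h1
    have h2 := (H v).1
    have h3 : 0 ≤ qf (g Φ₀ w) v := qf_nonneg (hg.posDef h₀ w (hKU hw)).posSemidef _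
    have h4 : (c * ‖v‖) ^ 2 ≤ qf (g Φ₀ w) v := by
      calc (c * ‖v‖) ^ 2 ≤ Real.sqrt (qf (g Φ₀ w) v) ^ 2 := pow_le_pow_left₀ (by positivity) h2 2
        _ = _ := Real.sq_sqrt h3
    have h5 : (∑ j, ∑ k, ‖(g Φ₀ ζ - g Φ₀ w) j k‖) * ‖v‖ ^ 2 ≤ c ^ 2 / 2 * ‖v‖ ^ 2 :=
      mul_le_mul_of_nonneg_right hζ'.le (sq_nonneg _)
    have h6 := (abs_le.1 (h1.trans h5)).1
    nlinarith

/-- `|d(Φ₀⁻¹ ∘ Φ_s)| ≤ C e^s` over a compact subset of the parametrisation `Φ₀`. -/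
theorem trans_bound (S : ChartSystem 𝓜 g o) (hg : IsMetric 𝓜 g) {Φ₀ : CE (Fin n) → V} {U₀ K₀ : Set (CE (Fin n))}
    (h₀ : 𝓜.IsHol Φ₀ U₀) (hK : IsCompact K₀) (hKU : K₀ ⊆ U₀) :
    ∃ C sK : ℝ, 0 < C ∧ ∀ s, sK ≤ s → ∀ z ∈ Metric.ball (0 : CE (Fin n)) S.r0, S.Φ s z ∈ Φ₀ '' K₀ →
      DifferentiableAt ℂ (Function.invFunOn Φ₀ U₀ ∘ S.Φ s) z ∧
      ‖fderiv ℂ (Function.invFunOn Φ₀ U₀ ∘ S.Φ s) z‖ ≤ C * Real.exp s := by
  obtain ⟨hKc, hKM⟩ := isHol_isCompact_image h₀ hK hKU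
  obtain ⟨s1, hb⟩ := S.g_bound _ hKc hKM
  obtain ⟨c, hc, hlow⟩ := metric_lower_bound hg h₀ hK hKU
  refine ⟨Real.sqrt (|S.C0| / c) + 1, max s1 S.s0, by positivity, ?_⟩
  intro s hs z hz hzK
  have hs1 : s1 ≤ s := (le_max_left _ _).trans hs
  have hs0 : S.s0 ≤ s := (le_max_right _ _).trans hs
  obtain ⟨U, _, hzU, hU⟩ := (S.Φ_loc s hs0).2 z hz
  obtain ⟨w, hw, hwz⟩ := hzK
  have hov : z ∈ U ∩ S.Φ s ⁻¹' (Φ₀ '' U₀) := ⟨hzU, ⟨w, hKU hw, hwz⟩⟩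
  refine ⟨CMfd.trans_differentiableAt hU h₀ hov, ?_⟩
  set τ := Function.invFunOn Φ₀ U₀ ∘ S.Φ s with hτ
  have hτz : τ z = w := by
    show Function.invFunOn Φ₀ U₀ (S.Φ s z) = w
    rw [← hwz, (𝓜.isParam h₀).leftInv (hKU hw)]
  have hpull := hg.toIsHForm.compat_trans hU h₀ hov
  rw [← hτ, hτz] at hpull
  have hup := hb s hs1 z hz ⟨w, hw, hwz⟩
  refine ContinuousLinearMap.opNorm_le_bound _ (by positivity) fun v => ?_
  rw [tr7_fderiv_eq_mulVec]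
  set y : CE (Fin n) := WithLp.toLp 2 ((jac τ z).mulVec (fun j => v j)) with hy
  have h1 : c * ‖y‖ ^ 2 ≤ S.C0 * Real.exp (2 * s) * ‖v‖ ^ 2 := by
    calc c * ‖y‖ ^ 2 ≤ qf (g Φ₀ w) y := hlow w hw y
      _ = qf (g (S.Φ s) z) (fun j => v j) := by rw [hpull, qf_conj]
      _ ≤ qf (cI (S.C0 * Real.exp (2 * s))) (fun j => v j) := qf_mono hup _
      _ = _ := by rw [cI, qf_smul, ← tr7_norm_sq_eq_qf_one]
  have h2 : ‖y‖ ^ 2 ≤ (Real.sqrt (|S.C0| / c) * Real.exp s * ‖v‖) ^ 2 := by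
    rw [mul_pow, mul_pow, Real.sq_sqrt (by positivity), ← Real.exp_nat_mul]
    have e1 : S.C0 * Real.exp (2 * s) * ‖v‖ ^ 2 ≤ |S.C0| * Real.exp (2 * s) * ‖v‖ ^ 2 :=
      mul_le_mul_of_nonneg_right (mul_le_mul_of_nonneg_right (le_abs_self _) (Real.exp_pos _).le) (sq_nonneg _)
    have e2 : |S.C0| / c * Real.exp ((2 : ℕ) * s) * ‖v‖ ^ 2 = (|S.C0| * Real.exp (2 * s) * ‖v‖ ^ 2) / c := by
      push_cast; ring
    rw [e2, le_div_iff₀ hc]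
    linarith
  have h3 : ‖y‖ ≤ Real.sqrt (|S.C0| / c) * Real.exp s * ‖v‖ :=
    (sq_le_sq₀ (norm_nonneg _) (by positivity)).1 h2
  refine h3.trans ?_
  have : 0 ≤ Real.exp s * ‖v‖ := by positivity
  nlinarith

/-- `|d f_s (v)| ≥ c e^{-s} |v|` over a compact subset of the parametrisation `Φ₀` (l.255-258). -/
theorem df_lower (S : ChartSystem 𝓜 g o) (hg : IsMetric 𝓜 g) {Φ₀ : CE (Fin n) → V} {U₀ K₀ : Set (CE (Fin n))}
    (h₀ : 𝓜.IsHol Φ₀ U₀) (hK : IsCompact K₀) (hKU : K₀ ⊆ U₀) :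
    ∃ C sK : ℝ, 0 < C ∧ ∀ s, sK ≤ s → ∀ w ∈ K₀, ∀ v : CE (Fin n),
      ‖v‖ ≤ C * Real.exp s * ‖fderiv ℂ (S.f s ∘ Φ₀) w v‖ := by
  obtain ⟨hKc, hKM⟩ := isHol_isCompact_image h₀ hK hKU
  obtain ⟨C, s1, hC, hT⟩ := trans_bound S hg h₀ hK hKU
  obtain ⟨s2, hD⟩ := S.Dom_exh _ hKc hKM
  refine ⟨C, max (max s1 s2) S.s0, hC, ?_⟩
  intro s hs w hw v
  have hs1 : s1 ≤ s := ((le_max_left _ _).trans (le_max_left _ _)).trans hs
  have hs2 : s2 ≤ s := ((le_max_right _ _).trans (le_max_left _ _)).trans hs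
  have hs0 : S.s0 ≤ s := (le_max_right _ _).trans hs
  have hx : Φ₀ w ∈ 𝓜.carrier ∩ S.Dom s := ⟨hKM ⟨w, hw, rfl⟩, hD s hs2 ⟨w, hw, rfl⟩⟩
  have hz := S.f_maps s hs0 _ hx
  have hΦz := S.Φ_f s hs0 _ hx
  obtain ⟨hd, hn⟩ := hT s hs1 _ hz (by rw [hΦz]; exact ⟨w, hw, rfl⟩)
  set τ := Function.invFunOn Φ₀ U₀ ∘ S.Φ s with hτ
  have hopen : IsOpen (U₀ ∩ Φ₀ ⁻¹' S.Dom s) := (𝓜.isParam h₀).isOpen_inter_preimage (S.Dom_open s)
  have hwO : w ∈ U₀ ∩ Φ₀ ⁻¹' S.Dom s := ⟨hKU hw, hx.2⟩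
  have hfd : DifferentiableAt ℂ (S.f s ∘ Φ₀) w :=
    (S.f_hol s hs0 Φ₀ U₀ h₀ w hwO).differentiableAt (hopen.mem_nhds hwO)
  have hid : (τ ∘ (S.f s ∘ Φ₀)) =ᶠ[𝓝 w] id := by
    filter_upwards [hopen.mem_nhds hwO] with w' hw'
    show Function.invFunOn Φ₀ U₀ (S.Φ s (S.f s (Φ₀ w'))) = w'
    rw [S.Φ_f s hs0 _ ⟨CMfd.mem_carrier h₀ hw'.1, hw'.2⟩, (𝓜.isParam h₀).leftInv hw'.1]
  have hchain : fderiv ℂ τ (S.f s (Φ₀ w)) (fderiv ℂ (S.f s ∘ Φ₀) w v) = v := by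
    have h1 : HasFDerivAt (τ ∘ (S.f s ∘ Φ₀)) ((fderiv ℂ τ (S.f s (Φ₀ w))).comp (fderiv ℂ (S.f s ∘ Φ₀) w)) w :=
      HasFDerivAt.comp w (hd.hasFDerivAt) hfd.hasFDerivAt
    have h2 : HasFDerivAt (τ ∘ (S.f s ∘ Φ₀)) (ContinuousLinearMap.id ℂ (CE (Fin n))) w :=
      (hasFDerivAt_id w).congr_of_eventuallyEq hid
    have := h1.unique h2
    exact congrArg (fun L : CE (Fin n) →L[ℂ] CE (Fin n) => L v) this
  calc ‖v‖ = ‖fderiv ℂ τ (S.f s (Φ₀ w)) (fderiv ℂ (S.f s ∘ Φ₀) w v)‖ := by rw [hchain]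
    _ ≤ ‖fderiv ℂ τ (S.f s (Φ₀ w))‖ * ‖fderiv ℂ (S.f s ∘ Φ₀) w v‖ := ContinuousLinearMap.le_opNorm _ _
    _ ≤ _ := mul_le_mul_of_nonneg_right hn (norm_nonneg _)

/-- **short paths are trapped** (first exit argument of l.232-247, in coordinates). -/
theorem trapping {Φ₀ : CE (Fin n) → V} {U₀ : Set (CE (Fin n))} (h₀ : 𝓜.IsHol Φ₀ U₀) {z₀ : CE (Fin n)} {ε : ℝ}
    (hε : 0 < ε) (hball : Metric.closedBall z₀ ε ⊆ U₀)
    {Φ : CE (Fin n) → V} {B : Set (CE (Fin n))} (hΦ : IsLocBihol 𝓜 Φ B) (hB : Convex ℝ B) {a b : CE (Fin n)}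
    (ha : a ∈ B) (hb : b ∈ B) (hstart : Φ a = Φ₀ z₀) {L : ℝ}
    (hL : ∀ z ∈ B, Φ z ∈ Φ₀ '' Metric.closedBall z₀ ε → ‖fderiv ℂ (Function.invFunOn Φ₀ U₀ ∘ Φ) z‖ ≤ L)
    (hsmall : L * ‖b - a‖ < ε) :
    Φ b ∈ Φ₀ '' Metric.closedBall z₀ (L * ‖b - a‖) := by
  have hp := 𝓜.isParam h₀
  have hz₀ε : z₀ ∈ Metric.closedBall z₀ ε := Metric.mem_closedBall_self hε.le
  have hL0 : 0 ≤ L := (norm_nonneg _).trans (hL a ha (hstart ▸ ⟨z₀, hz₀ε, rfl⟩))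
  set R : ℝ := L * ‖b - a‖ with hR
  have hR0 : 0 ≤ R := mul_nonneg hL0 (norm_nonneg _)
  set γ : ℝ → CE (Fin n) := fun θ => a + θ • (b - a) with hγ
  have hγB : ∀ θ ∈ Set.Icc (0 : ℝ) 1, γ θ ∈ B := by
    intro θ hθ
    have := hB ha hb (show 0 ≤ 1 - θ by linarith [hθ.2]) hθ.1 (by ring)
    have e : γ θ = (1 - θ) • a + θ • b := by
      simp only [hγ, smul_sub, sub_smul, one_smul]; abel
    rwa [e]
  have hγd : ∀ θ : ℝ, HasDerivAt γ (b - a) θ := fun θ => by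
    have h := ((hasDerivAt_id θ).smul_const (b - a)).const_add a
    rw [one_smul] at h
    exact h
  have hγc : Continuous γ := continuous_iff_continuousAt.2 fun θ => (hγd θ).continuousAt
  set G : ℝ → V := fun θ => Φ (γ θ) with hG
  have hGc : ContinuousOn G (Set.Icc 0 1) := (tr7_continuousOn hΦ).comp hγc.continuousOn hγB
  set τ := Function.invFunOn Φ₀ U₀ ∘ Φ with hτ
  have hG0 : G 0 = Φ₀ z₀ := by simp [hG, hγ, hstart]
  -- mean value inequality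
  have M : ∀ θ ∈ Set.Icc (0 : ℝ) 1, (∀ θ' ∈ Set.Icc 0 θ, G θ' ∈ Φ₀ '' Metric.closedBall z₀ ε) →
      G θ ∈ Φ₀ '' Metric.closedBall z₀ R := by
    intro θ hθ hin
    have hd : ∀ x ∈ Set.Icc 0 θ, HasDerivWithinAt (τ ∘ γ) (fderiv ℂ τ (γ x) (b - a)) (Set.Icc 0 θ) x := by
      intro x hx
      have hxB := hγB x ⟨hx.1, hx.2.trans hθ.2⟩
      obtain ⟨U, _, hxU, hU⟩ := hΦ.2 _ hxB
      have hov : γ x ∈ U ∩ Φ ⁻¹' (Φ₀ '' U₀) := ⟨hxU, Set.image_mono hball (hin x hx)⟩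
      exact ((CMfd.trans_hasFDerivAt_real hU h₀ hov).comp_hasDerivAt x (hγd x)).hasDerivWithinAt
    have hbd : ∀ x ∈ Set.Ico 0 θ, ‖fderiv ℂ τ (γ x) (b - a)‖ ≤ R := by
      intro x hx
      have hx' : x ∈ Set.Icc 0 θ := Set.Ico_subset_Icc_self hx
      have hxB := hγB x ⟨hx'.1, hx'.2.trans hθ.2⟩
      exact (ContinuousLinearMap.le_opNorm _ _).trans
        (mul_le_mul_of_nonneg_right (hL _ hxB (hin x hx')) (norm_nonneg _))
    have h1 := norm_image_sub_le_of_norm_deriv_le_segment' hd hbd θ ⟨hθ.1, le_rfl⟩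
    have h2 : (τ ∘ γ) 0 = z₀ := by
      show Function.invFunOn Φ₀ U₀ (G 0) = z₀
      rw [hG0, hp.leftInv (hball hz₀ε)]
    rw [h2] at h1
    refine ⟨(τ ∘ γ) θ, ?_, hp.rightInv (Set.image_mono hball (hin θ ⟨hθ.1, le_rfl⟩))⟩
    rw [Metric.mem_closedBall, dist_eq_norm]
    refine h1.trans ?_
    have := hθ.2
    nlinarith
  -- first exit
  obtain ⟨O, hO, hOeq⟩ := hp.exists_isOpen_image (Metric.isOpen_ball (x := z₀) (ε := ε))
    (Metric.ball_subset_closedBall.trans hball)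
  set E : Set ℝ := Set.Icc 0 1 ∩ G ⁻¹' Oᶜ with hE
  have hEcl : IsClosed E := hGc.preimage_isClosed_of_isClosed isClosed_Icc hO.isClosed_compl
  have hnotE : ∀ θ ∈ Set.Icc (0 : ℝ) 1, θ ∉ E → G θ ∈ Φ₀ '' Metric.closedBall z₀ ε := by
    intro θ hθ hn
    have h1 : G θ ∈ O := by
      by_contra hc
      exact hn ⟨hθ, hc⟩
    have h2 : G θ ∈ Φ₀ '' Metric.ball z₀ ε := by
      rw [hOeq]; exact ⟨tr7_mem_carrier hΦ (hγB θ hθ), h1⟩
    exact Set.image_mono Metric.ball_subset_closedBall h2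
  have hKsub : Φ₀ '' Metric.closedBall z₀ R ⊆ O := by
    have : Φ₀ '' Metric.closedBall z₀ R ⊆ Φ₀ '' Metric.ball z₀ ε :=
      Set.image_mono (Metric.closedBall_subset_ball hsmall)
    rw [hOeq] at this
    exact fun x hx => (this hx).2
  have hEempty : E = ∅ := by
    by_contra hne
    have hne' : E.Nonempty := Set.nonempty_iff_ne_empty.2 hne
    have hEc : IsCompact E := isCompact_Icc.of_isClosed_subset hEcl Set.inter_subset_left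
    have hmem := hEc.sInf_mem hne'
    set θ₁ := sInf E with hθ₁
    have hlow : ∀ θ ∈ E, θ₁ ≤ θ := fun θ hθ => csInf_le hEc.bddBelow hθ
    have hbefore : ∀ θ ∈ Set.Ico 0 θ₁, G θ ∈ Φ₀ '' Metric.closedBall z₀ R := by
      intro θ hθ
      have hθI : θ ∈ Set.Icc (0 : ℝ) 1 := ⟨hθ.1, hθ.2.le.trans hmem.1.2⟩
      refine M θ hθI fun θ' hθ' => hnotE θ' ⟨hθ'.1, hθ'.2.trans hθI.2⟩ fun hc => ?_
      exact absurd (hlow θ' hc) (not_le.2 (hθ'.2.trans_lt hθ.2))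
    have hpos : 0 < θ₁ := by
      rcases hmem.1.1.lt_or_eq with h | h
      · exact h
      · exfalso
        have h1 : G θ₁ ∈ O := by
          rw [← h, hG0]
          exact hKsub ⟨z₀, Metric.mem_closedBall_self hR0, rfl⟩
        exact hmem.2 h1
    have hKcl : IsClosed (Φ₀ '' Metric.closedBall z₀ R) :=
      ((isCompact_closedBall z₀ R).image_of_continuousOn
        (hp.continuousOn.mono ((Metric.closedBall_subset_closedBall hsmall.le).trans hball))).isClosed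
    have hcw : ContinuousWithinAt G (Set.Ico 0 θ₁) θ₁ :=
      (hGc θ₁ hmem.1).mono fun x hx => ⟨hx.1, hx.2.le.trans hmem.1.2⟩
    have hcl : θ₁ ∈ closure (Set.Ico 0 θ₁) := by
      rw [closure_Ico hpos.ne]; exact ⟨hpos.le, le_rfl⟩
    have := hcw.mem_closure hcl hbefore
    rw [hKcl.closure_eq] at this
    exact hmem.2 (hKsub this)
  have h1 : (1 : ℝ) ∈ Set.Icc (0 : ℝ) 1 := ⟨zero_le_one, le_rfl⟩
  have := M 1 h1 fun θ' hθ' => hnotE θ' hθ' (by rw [hEempty]; exact Set.notMem_empty _)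
  have e : G 1 = Φ b := by simp [hG, hγ]
  rwa [e] at this

/-! ### the inverse branches -/

/-- `f_u ∘ Φ_s = F_{s,u}` on a ball `ball 0 r`, `r < r1`, for all late `u` (l.291-296). -/
theorem f_Φ (S : ChartSystem 𝓜 g o) {s r : ℝ} (hs : S.s0 ≤ s) (hr : r < S.r1) :
    ∃ u₀ : ℝ, ∀ u, u₀ ≤ u → ∀ z ∈ Metric.ball (0 : CE (Fin n)) r,
      S.Φ s z ∈ S.Dom u ∧ S.f u (S.Φ s z) = S.F s u z := by
  have hsub0 : Metric.closedBall (0 : CE (Fin n)) r ⊆ Metric.ball 0 S.r0 :=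
    Metric.closedBall_subset_ball (hr.trans S.r1_lt)
  obtain ⟨hK, hKM⟩ := locBihol_isCompact_image (S.Φ_loc s hs) (isCompact_closedBall 0 r) hsub0
  obtain ⟨sK, hD⟩ := S.Dom_exh _ hK hKM
  refine ⟨max sK s, fun u hu z hz => ?_⟩
  have hu1 : sK ≤ u := (le_max_left _ _).trans hu
  have hsu : s ≤ u := (le_max_right _ _).trans hu
  have hu0 : S.s0 ≤ u := hs.trans hsu
  have hmem : ∀ y ∈ Metric.ball (0 : CE (Fin n)) r, S.Φ s y ∈ 𝓜.carrier ∩ S.Dom u := fun y hy =>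
    ⟨hKM ⟨y, Metric.ball_subset_closedBall hy, rfl⟩, hD u hu1 ⟨y, Metric.ball_subset_closedBall hy, rfl⟩⟩
  refine ⟨(hmem z hz).2, ?_⟩
  have hr0 : 0 < r := by
    rw [Metric.mem_ball, dist_zero_right] at hz
    exact (norm_nonneg z).trans_lt hz
  have hb1 : Metric.ball (0 : CE (Fin n)) r ⊆ Metric.ball 0 S.r1 := Metric.ball_subset_ball hr.le
  have hb0 : Metric.ball (0 : CE (Fin n)) r ⊆ Metric.ball 0 S.r0 :=
    Metric.ball_subset_closedBall.trans hsub0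
  have L1 : Tr7Lift (S.Φ u) (Metric.ball 0 S.r0) (S.Φ s) (Metric.ball 0 r) (S.F s u) :=
    ⟨((S.F_hol s u hs hsu).continuousOn).mono hb1, fun y hy => S.F_maps s u hs hsu (hb1 hy),
      fun y hy => S.Φ_F s u hs hsu y (hb1 hy)⟩
  have L2 : Tr7Lift (S.Φ u) (Metric.ball 0 S.r0) (S.Φ s) (Metric.ball 0 r) (S.f u ∘ S.Φ s) :=
    ⟨((holTo_comp_locBihol (S.Φ_loc s hs) (S.f_hol u hu0)).continuousOn).mono
        fun y hy => ⟨hb0 hy, (hmem y hy).2⟩,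
      fun y hy => S.f_maps u hu0 _ (hmem y hy), fun y hy => S.Φ_f u hu0 _ (hmem y hy)⟩
  have h0 : (0 : CE (Fin n)) ∈ Metric.ball (0 : CE (Fin n)) r := Metric.mem_ball_self hr0
  refine L2.eqOn (S.Φ_loc u hu0) L1 (convex_ball 0 r).isPreconnected h0 ?_ hz
  show S.f u (S.Φ s 0) = S.F s u 0
  rw [S.Φ_zero s hs, S.f_o u hu0, S.F_zero s u hs hsu]

/-- regime (i). -/
theorem ev_raw_one (S : ChartSystem 𝓜 g o) (X : Par S.toTransSystem) {K : Set V} (hK : IsCompact K)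
    (hKM : K ⊆ 𝓜.carrier) :
    ∀ᶠ k in atTop, ∀ x ∈ K, X.RawAdm k (fun i => S.f (X.s i) x) ∧
      ∀ i, k ≤ i → x ∈ S.Dom (X.s i) ∧ ‖S.f (X.s i) x‖ ≤ Real.exp (-(X.σ * X.s i)) := by
  obtain ⟨s1, h1⟩ := S.Dom_exh K hK hKM
  obtain ⟨s2, h2⟩ := S.f_coh K hK hKM
  obtain ⟨s3, h3⟩ := S.f_small K hK hKM
  filter_upwards [X.ev_s_ge s1, X.ev_s_ge s2, X.ev_s_ge s3] with k k1 k2 k3 x hx
  have hsm : ∀ i, k ≤ i → ‖S.f (X.s i) x‖ ≤ Real.exp (-(X.σ * X.s i)) := by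
    intro i hi
    refine (h3 _ (k3.trans (X.s_mono hi)) x hx).trans (Real.exp_le_exp.2 ?_)
    have e1 := X.σ_le
    have e2 := X.one_le_s i
    have : X.σ * X.s i ≤ S.σ * X.s i := mul_le_mul_of_nonneg_right e1 (by linarith)
    linarith
  refine ⟨fun i hi => ⟨(hsm i hi).trans (Real.exp_le_exp.2 ?_), ?_⟩, fun i hi => ⟨h1 _ (k1.trans (X.s_mono hi)) hx, hsm i hi⟩⟩
  · have e1 := X.ν_lt_σ
    have e2 := X.one_le_s i
    have e3 := X.ν_pos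
    nlinarith
  · exact (h2 _ _ (k2.trans (X.s_mono hi)) (X.s_le_succ i) x hx).2

end Claimed.Agent.R316.S10
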