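import Claimed.Agent.R316.S10.Psi

/-!
# Row 316, S10: the image of `Ψ` (Proposition 9.2, l.262-345)

Owner: helper84.  ALL PROVED (no open proof left in this file).
Leaves: S10-IM-A (`immersion_isOpen_image`, `immersion_isCompact_preimage`: general facts on injective holomorphic immersions `M → ℂⁿ`),
S10-IM-B (`ev_forward_small`), S10-IM-C (`ev_ball_incl`).

* S10-IM-A: `Ψ` restricted to the subtype `𝓜.carrier` is continuous (`CMfd.continuousOn_iff`), injective and open (`scv_image_mem_nhds` in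
  parametrisations + `IsParam.map_nhds_eq`), hence an open embedding; `Topology.IsInducing.isCompact_preimage_iff`.
* `ev_forward_small` (9.13): `K' = 𝓜.carrier ∩ Ψ⁻¹ K` is compact; on `K'`: `|G_{0,k} Ψ| ≤ |H_k f_k| + e^{-6 s_k} ≤ e^{ε s_k - σ s_k} + e^{-6 s_k}` (`ev_Psi`, `Par.ev_H_le`).
* `ev_ball_incl` (9.14): `scv_exists_preimage` with `T = fw k ∘ Ψ ∘ Φ_{s_k}`, `A = H_k'(0)`, `r = e^{-γ s_k}`, `a = s_k^Cp`:
  `a |T z - A z| ≤ s_k^Cp (e^{-6 s_k} + e^{ε s_k} r²) ≤ r/16`, `a |w| ≤ s_k^Cp e^{-γ' s_k} ≤ r/4`  (`ev_chart_shadow`, `Par.ev_H_lin`, `PolyModels.H_lin_inv`).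
-/

set_option autoImplicit false
open scoped ContDiff ComplexOrder Topology
open Filter

namespace Claimed.Agent.R316.S10

variable {V : Type} [NormedAddCommGroup V] [NormedSpace ℝ V]
variable {n : ℕ} {𝓜 : CMfd V (Fin n)} {g : HFam V (Fin n)} {o : V}

/-- the image of a holomorphic immersion `M → ℂⁿ` is open. -/
theorem immersion_isOpen_image {Ψ : V → CE (Fin n)}
    (hol : ∀ (Φ : CE (Fin n) → V) (U : Set (CE (Fin n))), 𝓜.IsHol Φ U →
      DifferentiableOn ℂ (Ψ ∘ Φ) U ∧ ∀ z ∈ U, Function.Injective (fderiv ℂ (Ψ ∘ Φ) z)) :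
    IsOpen (Ψ '' 𝓜.carrier) := by
  rw [isOpen_iff_mem_nhds]
  rintro _ ⟨x, hx, rfl⟩
  obtain ⟨Φ, U, h, z, hz, rfl⟩ := 𝓜.cover x hx
  have ho : IsOpen ((Ψ ∘ Φ) '' U) := scv_isOpen_image (CMfd.isOpen_dom h) (hol Φ U h).1 (hol Φ U h).2
  refine mem_of_superset (ho.mem_nhds ⟨z, hz, rfl⟩) ?_
  rintro _ ⟨z', hz', rfl⟩
  exact ⟨Φ z', CMfd.mem_carrier h hz', rfl⟩

/-- an injective holomorphic immersion `M → ℂⁿ` is a homeomorphism onto its image: preimages of compact subsets of the image are compact. -/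
theorem immersion_isCompact_preimage {Ψ : V → CE (Fin n)}
    (hol : ∀ (Φ : CE (Fin n) → V) (U : Set (CE (Fin n))), 𝓜.IsHol Φ U →
      DifferentiableOn ℂ (Ψ ∘ Φ) U ∧ ∀ z ∈ U, Function.Injective (fderiv ℂ (Ψ ∘ Φ) z))
    (inj : Set.InjOn Ψ 𝓜.carrier) {K : Set (CE (Fin n))} (hK : IsCompact K) (hKΩ : K ⊆ Ψ '' 𝓜.carrier) :
    IsCompact (𝓜.carrier ∩ Ψ ⁻¹' K) := by
  set σ := Function.invFunOn Ψ 𝓜.carrier with hσ
  have hleft : ∀ x ∈ 𝓜.carrier, σ (Ψ x) = x := fun x hx => inj.leftInvOn_invFunOn hx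
  have hcont : ContinuousOn σ (Ψ '' 𝓜.carrier) := by
    rintro _ ⟨x, hx, rfl⟩
    refine ContinuousAt.continuousWithinAt ?_
    obtain ⟨Φ, U, h, z, hz, rfl⟩ := 𝓜.cover x hx
    have hUo := CMfd.isOpen_dom h
    intro N hN
    rw [hleft _ hx] at hN
    have hΦc : ContinuousAt Φ z := ((𝓜.isParam h).continuousOn z hz).continuousAt (hUo.mem_nhds hz)
    have hN' : Φ ⁻¹' N ∩ U ∈ 𝓝 z := inter_mem (hΦc hN) (hUo.mem_nhds hz)
    have := scv_image_mem_nhds hUo (hol Φ U h).1 hz ((hol Φ U h).2 z hz) hN'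
    rw [mem_map]
    refine mem_of_superset this ?_
    rintro _ ⟨z', hz', rfl⟩
    show σ (Ψ (Φ z')) ∈ N
    rw [hleft _ (CMfd.mem_carrier h hz'.2)]
    exact hz'.1
  have himg : 𝓜.carrier ∩ Ψ ⁻¹' K = σ '' K := by
    ext x
    constructor
    · rintro ⟨hx, hxK⟩
      exact ⟨Ψ x, hxK, hleft x hx⟩
    · rintro ⟨y, hy, rfl⟩
      refine ⟨Function.invFunOn_mem (hKΩ hy), ?_⟩
      show Ψ (σ y) ∈ K
      rw [hσ, Function.invFunOn_eq (hKΩ hy)]
      exact hy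
  rw [himg]
  exact hK.image_of_continuousOn (hcont.mono hKΩ)

variable (S : ChartSystem 𝓜 g o) (X : Par S.toTransSystem)

/-- (9.13) forward smallness. -/
theorem ev_forward_small (hg : IsMetric 𝓜 g) {K : Set (CE (Fin n))} (hK : IsCompact K)
    (hKΩ : K ⊆ Psi S X '' 𝓜.carrier) :
    ∀ᶠ k in atTop, ∀ w ∈ K, ‖fw X.G k w‖ ≤ Real.exp (-(X.σ / 2 * X.s k)) := by
  have hK' : IsCompact (𝓜.carrier ∩ Psi S X ⁻¹' K) :=
    immersion_isCompact_preimage (fun Φ U h => ⟨Psi_hol S X Φ U h, Psi_immersion S X hg Φ U h⟩)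
      (Psi_injOn S X hg) hK hKΩ
  have hσ4 : 0 < X.σ / 4 := by have := X.σ_pos; positivity
  filter_upwards [ev_Psi S X hK' Set.inter_subset_left, X.ev_H_le hσ4, X.ev_const 2 hσ4] with k h1 h2 h3 w hw
  obtain ⟨x, hx, rfl⟩ := hKΩ hw
  obtain ⟨h4, h5⟩ := h1 x ⟨hx, hw⟩
  obtain ⟨-, h6, -⟩ := h4 k le_rfl
  set s := X.s k with hs
  have hs1 : 1 ≤ s := X.one_le_s k
  have hσ := X.σ_pos
  have hσ1 := X.σ_lt
  have h7 : ‖S.f s x‖ ≤ 1 := h6.trans (Real.exp_le_one_iff.2 (by nlinarith))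
  have h8 : ‖zeta S X x k‖ ≤ Real.exp (-(3 * X.σ / 4 * s)) := by
    calc ‖zeta S X x k‖ ≤ Real.exp (X.σ / 4 * s) * ‖S.f s x‖ := h2 _ h7
      _ ≤ Real.exp (X.σ / 4 * s) * Real.exp (-(X.σ * s)) := mul_le_mul_of_nonneg_left h6 (Real.exp_pos _).le
      _ = _ := by rw [← Real.exp_add]; congr 1; ring
  have h9 : Real.exp (-(6 * s)) ≤ Real.exp (-(3 * X.σ / 4 * s)) := Real.exp_le_exp.2 (by nlinarith)
  have h10 : ‖fw X.G k (Psi S X x)‖ ≤ 2 * Real.exp (-(3 * X.σ / 4 * s)) := by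
    have e : fw X.G k (Psi S X x) = (fw X.G k (Psi S X x) - zeta S X x k) + zeta S X x k := by abel
    rw [e]
    refine (norm_add_le _ _).trans ?_
    linarith
  calc ‖fw X.G k (Psi S X x)‖ ≤ 2 * Real.exp (-(3 * X.σ / 4 * s)) := h10
    _ ≤ Real.exp (X.σ / 4 * s) * Real.exp (-(3 * X.σ / 4 * s)) := mul_le_mul_of_nonneg_right h3 (Real.exp_pos _).le
    _ = _ := by rw [← Real.exp_add]; congr 1; ring

/-- (9.14) inverse ball inclusion. -/
theorem ev_ball_incl : ∀ᶠ k in atTop, ∀ w : CE (Fin n), ‖w‖ ≤ Real.exp (-(X.γ' * X.s k)) →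
    ∃ x ∈ 𝓜.carrier, fw X.G k (Psi S X x) = w := by
  have hγ := X.γ_pos
  have hγ4 : 0 < X.γ / 4 := by positivity
  have hγ2 : 0 < X.γ / 2 := by positivity
  have hδ : 0 < (X.γ' - X.γ) / 2 := by have := X.γ_lt; linarith
  filter_upwards [ev_chart_shadow S X, X.ev_H_lin hγ4, X.ev_rpow' hγ4, X.ev_rpow' hδ, X.ev_const 32 hγ2,
    X.ev_const 4 hδ, (tendsto_exp_neg_s S X X.γ_pos).eventually_lt_const S.r1_pos] with k h1 h2 h3 h4 h5 h6 h7 w hw
  set s := X.s k with hs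
  have hs1 : 1 ≤ s := X.one_le_s k
  have hs0 : S.s0 ≤ s := X.s0_le_s k
  set r := Real.exp (-(X.γ * s)) with hr
  have hr0 : 0 < r := Real.exp_pos _
  have hr1 : r < 1 := Real.exp_lt_one_iff.2 (by nlinarith)
  have ha : 0 < s ^ X.P.Cp := Real.rpow_pos_of_pos (by linarith) _
  have hsub : Metric.ball (0 : CE (Fin n)) r ⊆ Metric.ball 0 S.r0 := Metric.ball_subset_ball (h7.trans S.r1_lt).le
  have hT : DifferentiableOn ℂ (fun z => fw X.G k (Psi S X (S.Φ s z))) (Metric.ball 0 r) := by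
    have e1 := holTo_comp_locBihol (S.Φ_loc s hs0) (Psi_holTo S X)
    exact (fw_differentiable X.G_differentiable k).comp_differentiableOn (e1.mono fun z hz => ⟨hsub hz, trivial⟩)
  have hγσ : X.γ < 1 / 2 := by
    have e1 := X.γ_lt; have e2 := X.γ'_lt; have e3 := X.σ_lt; linarith
  have hE : ∀ z ∈ Metric.ball (0 : CE (Fin n)) r,
      s ^ X.P.Cp * ‖fw X.G k (Psi S X (S.Φ s z)) - fderiv ℂ (X.H k) 0 z‖ ≤ r / 16 := by
    intro z hz
    rw [Metric.mem_ball, dist_zero_right] at hz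
    have e1 := h1 z hz
    have e2 := h2 z (hz.trans hr1)
    have e3 : ‖fw X.G k (Psi S X (S.Φ s z)) - fderiv ℂ (X.H k) 0 z‖ ≤
        Real.exp (-(6 * s)) + Real.exp (X.γ / 4 * s) * r ^ 2 := by
      have e : fw X.G k (Psi S X (S.Φ s z)) - fderiv ℂ (X.H k) 0 z =
          (fw X.G k (Psi S X (S.Φ s z)) - X.H k z) + (X.H k z - fderiv ℂ (X.H k) 0 z) := by abel
      rw [e]
      refine (norm_add_le _ _).trans (add_le_add e1 (e2.trans ?_))
      exact mul_le_mul_of_nonneg_left (pow_le_pow_left₀ (norm_nonneg _) hz.le 2) (Real.exp_pos _).le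
    have e4 : Real.exp (X.γ / 4 * s) * Real.exp (-(6 * s)) ≤ r / 32 := by
      rw [le_div_iff₀ (by norm_num)]
      calc Real.exp (X.γ / 4 * s) * Real.exp (-(6 * s)) * 32
          ≤ Real.exp (X.γ / 4 * s) * Real.exp (-(6 * s)) * Real.exp (X.γ / 2 * s) :=
            mul_le_mul_of_nonneg_left h5 (by positivity)
        _ = Real.exp (X.γ / 4 * s + -(6 * s) + X.γ / 2 * s) := by rw [Real.exp_add, Real.exp_add]
        _ ≤ r := Real.exp_le_exp.2 (by nlinarith)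
    have e5 : Real.exp (X.γ / 4 * s) * (Real.exp (X.γ / 4 * s) * r ^ 2) ≤ r / 32 := by
      rw [le_div_iff₀ (by norm_num)]
      calc Real.exp (X.γ / 4 * s) * (Real.exp (X.γ / 4 * s) * r ^ 2) * 32
          ≤ Real.exp (X.γ / 4 * s) * (Real.exp (X.γ / 4 * s) * r ^ 2) * Real.exp (X.γ / 2 * s) :=
            mul_le_mul_of_nonneg_left h5 (by positivity)
        _ = Real.exp (X.γ / 4 * s + (X.γ / 4 * s + (2 : ℕ) * (-(X.γ * s))) + X.γ / 2 * s) := by
            rw [Real.exp_add, Real.exp_add, Real.exp_add, Real.exp_nat_mul]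
        _ = r := by rw [hr]; congr 1; push_cast; ring
    calc s ^ X.P.Cp * ‖fw X.G k (Psi S X (S.Φ s z)) - fderiv ℂ (X.H k) 0 z‖
        ≤ Real.exp (X.γ / 4 * s) * (Real.exp (-(6 * s)) + Real.exp (X.γ / 4 * s) * r ^ 2) :=
          mul_le_mul h3 e3 (norm_nonneg _) (Real.exp_pos _).le
      _ = Real.exp (X.γ / 4 * s) * Real.exp (-(6 * s)) + Real.exp (X.γ / 4 * s) * (Real.exp (X.γ / 4 * s) * r ^ 2) := by ring
      _ ≤ r / 32 + r / 32 := add_le_add e4 e5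
      _ = r / 16 := by ring
  have hw' : s ^ X.P.Cp * ‖w‖ ≤ r / 4 := by
    rw [le_div_iff₀ (by norm_num)]
    calc s ^ X.P.Cp * ‖w‖ * 4 ≤ Real.exp ((X.γ' - X.γ) / 2 * s) * Real.exp (-(X.γ' * s)) * Real.exp ((X.γ' - X.γ) / 2 * s) :=
          mul_le_mul (mul_le_mul h4 hw (norm_nonneg _) (Real.exp_pos _).le) h6 (by norm_num) (by positivity)
      _ = r := by rw [← Real.exp_add, ← Real.exp_add, hr]; congr 1; ring
  obtain ⟨z, hz, hzw⟩ := scv_exists_preimage hr0 ha hT (A := fderiv ℂ (X.H k) 0) (fun v => X.P.H_lin_inv k v) hE w hw'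
  refine ⟨S.Φ s z, locBihol_mem (S.Φ_loc s hs0) (hsub (Metric.closedBall_subset_ball (by linarith) hz)), hzw⟩

end Claimed.Agent.R316.S10
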