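import Claimed.Agent.R316.S10.Image

/-!
# Row 316, S10: the image is all of `ℂⁿ` (`uniformization.tex` l.347-383) and `St9`

Owner: helper84.  Glue only (no `sorry` in this file).

Instead of the supremum `R_*` of the paper: if `closedBall 0 R ⊆ Ω` then `closedBall 0 (e^θ R) ⊆ Ω` with the FIXED ratio
`θ = (σ/2 - γ') / (2 max(D,1))`; iterate.
-/

set_option autoImplicit false
open scoped ContDiff ComplexOrder Topology
open Filter

namespace Claimed.Agent.R316.S10

variable {V : Type} [NormedAddCommGroup V] [NormedSpace ℝ V]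
variable {n : ℕ} {𝓜 : CMfd V (Fin n)} {g : HFam V (Fin n)} {o : V}
variable (S : ChartSystem 𝓜 g o) (X : Par S.toTransSystem)

/-- the logarithm of the expansion ratio. -/
noncomputable def theta : ℝ := (X.σ / 2 - X.γ') / (2 * max X.P.Dfw 1)

theorem theta_pos : 0 < theta S X := by
  have h1 : 0 < X.σ / 2 - X.γ' := by linarith [X.γ'_lt]
  have h2 : (0 : ℝ) < 2 * max X.P.Dfw 1 := by positivity
  exact div_pos h1 h2

theorem ball_step (hg : IsMetric 𝓜 g) {R : ℝ} (hR : 0 < R)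
    (h : Metric.closedBall (0 : CE (Fin n)) R ⊆ Psi S X '' 𝓜.carrier) :
    Metric.closedBall (0 : CE (Fin n)) (Real.exp (theta S X) * R) ⊆ Psi S X '' 𝓜.carrier := by
  have hθ := theta_pos S X
  have h1 := ev_forward_small S X hg (isCompact_closedBall (0 : CE (Fin n)) R) h
  have h2 := ev_ball_incl S X
  obtain ⟨k₁, hk₁⟩ := (h1.and h2).exists_forall_of_atTop
  obtain ⟨k, hk, P, hdeg, hP⟩ := X.P.fw_deg k₁
  obtain ⟨hfs, hbi⟩ := hk₁ k hk
  have hfw : ∀ z, fw X.G k z = P.ev z := fun z => (hP z).symm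
  have hs : 0 < X.s k := lt_of_lt_of_le one_pos (X.one_le_s k)
  intro z hz
  rw [mem_closedBall_zero_iff] at hz
  have hRle : R ≤ Real.exp (theta S X) * R := by
    have : 1 ≤ Real.exp (theta S X) := Real.one_le_exp hθ.le
    nlinarith
  have hgr := P.growth hR hRle (M := Real.exp (-(X.σ / 2 * X.s k)))
    (fun y hy => by rw [← hfw]; exact hfs y (mem_closedBall_zero_iff.2 hy)) z hz
  have hratio : Real.exp (theta S X) * R / R = Real.exp (theta S X) := by field_simp
  rw [hratio, ← Real.exp_nat_mul, ← Real.exp_add] at hgr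
  have hD : (0 : ℝ) < max X.P.Dfw 1 := by positivity
  have hdeg' : (P.deg : ℝ) ≤ max X.P.Dfw 1 * X.s k :=
    hdeg.trans (mul_le_mul_of_nonneg_right (le_max_left _ _) hs.le)
  have hkey : (P.deg : ℝ) * theta S X ≤ (X.σ / 2 - X.γ') / 2 * X.s k := by
    calc (P.deg : ℝ) * theta S X ≤ (max X.P.Dfw 1 * X.s k) * theta S X :=
          mul_le_mul_of_nonneg_right hdeg' hθ.le
      _ = (X.σ / 2 - X.γ') / 2 * X.s k := by
          unfold theta; field_simp
  have hle : ‖fw X.G k z‖ ≤ Real.exp (-(X.γ' * X.s k)) := by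
    rw [hfw]
    refine hgr.trans (Real.exp_le_exp.2 ?_)
    have h3 : 0 < X.σ / 2 - X.γ' := by linarith [X.γ'_lt]
    nlinarith
  obtain ⟨x, hx, hxz⟩ := hbi _ hle
  exact ⟨x, hx, fw_injective X.G_left k hxz⟩

theorem Psi_surj (hg : IsMetric 𝓜 g) (ho : o ∈ 𝓜.carrier) : Psi S X '' 𝓜.carrier = Set.univ := by
  have hopen : IsOpen (Psi S X '' 𝓜.carrier) :=
    immersion_isOpen_image fun Φ U h => ⟨Psi_hol S X Φ U h, Psi_immersion S X hg Φ U h⟩
  have h0 : (0 : CE (Fin n)) ∈ Psi S X '' 𝓜.carrier := ⟨o, ho, Psi_o S X⟩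
  obtain ⟨R₀, hR₀, hball⟩ := Metric.isOpen_iff.1 hopen 0 h0
  have hθ := theta_pos S X
  have hind : ∀ m : ℕ, Metric.closedBall (0 : CE (Fin n)) (Real.exp (theta S X) ^ m * (R₀ / 2)) ⊆
      Psi S X '' 𝓜.carrier := by
    intro m
    induction m with
    | zero =>
      simp only [pow_zero, one_mul]
      exact (Metric.closedBall_subset_ball (by linarith)).trans hball
    | succ m ih =>
      have := ball_step S X hg (R := Real.exp (theta S X) ^ m * (R₀ / 2)) (by positivity) ih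
      rwa [← mul_assoc, ← pow_succ'] at this
  refine Set.eq_univ_of_forall fun w => ?_
  obtain ⟨m, hm⟩ := pow_unbounded_of_one_lt (‖w‖ / (R₀ / 2)) (Real.one_lt_exp_iff.2 hθ)
  refine hind m (mem_closedBall_zero_iff.2 ?_)
  rw [div_lt_iff₀ (by positivity)] at hm
  exact hm.le

end S10

variable {V : Type} [NormedAddCommGroup V] [NormedSpace ℝ V] {n : ℕ}

/-- **Section 9 of the paper.** -/
theorem st9 (𝓜 : CMfd V (Fin n)) (g : HFam V (Fin n)) (o : V) : St9 𝓜 g o := by
  intro hI ho S h81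
  obtain ⟨X⟩ := S10.exists_par S.toTransSystem hI.n_pos h81
  have hg : IsMetric 𝓜 g := hI.kahler.toIsMetric
  refine ⟨S10.Psi S X, ⟨fun _ _ => Set.mem_univ _, S10.Psi_injOn S X hg, ?_⟩, fun Φ U h =>
    ⟨S10.Psi_hol S X Φ U h, S10.Psi_immersion S X hg Φ U h⟩⟩
  intro w _
  have := S10.Psi_surj S X hg ho
  exact this ▸ Set.mem_univ w

end Claimed.Agent.R316
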