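import Claimed.Agent.R316.Pack031

/-!
# Row 316, S10: local error estimates (9.5)-(9.9) (`uniformization.tex` l.33-128), regime (ii)

Owner: helper84.  ALL PROVED (no open proof left in this file).  Pure `ℂⁿ` (only `TransSystem`, `PolyModels`).
Leaves: S10-ORB-A (`ev_defect`, `ev_H_small`), S10-ORB-B (`ev_tube`, `exists_shadowHyp`, `ev_H_lower`, `ev_dH_lower`, `ev_H_lin`),
S10-ORB-C (`comp_small`, `ev_raw_two`).  `ev_adm_of_raw`, `ev_shadow` are glue.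

* `ev_defect`: `Er = H_{k+1} ∘ F_k - G_k ∘ H_k` is holomorphic on `ball 0 r1`, `O(|z|^{d+1})` at `0` (`PolyModels.jets`) and bounded there by
  `M_k = cnorm H_{k+1} · max(1,Bst)^Dg + cnorm G_k · (cnorm H_k · max(1,r1)^Dg ⊔ 1)^Dg ≤ e^{(ν/4 + ε) s_k}`; `scv_schwarz_pow` gives
  `|Er z| ≤ M_k (|z|/r1)^{d+1}`, and `5 ν (d+1) > 150`.
* `ev_tube` (9.9): `PMap.lipschitz_small` for `Ginv k` with `ρ = e^{-ν s_{k+1}}`, `PMap.norm_fderiv_inv_le` with `K = s_k^Cp e^{Δ/2}`: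
  `s_k^Cp e^{Δ/2} ≤ e^{3Δ/4}`, `12 cnorm ρ ≤ 12 e^{(ν/4+ε) s_k - ν s_k} ≤ 1/4 ≤ e^{Δ} - e^{3Δ/4}`.
-/

set_option autoImplicit false
open scoped ContDiff ComplexOrder Topology
open Filter

namespace Claimed.Agent.R316.S10

variable {n : ℕ} {T : TransSystem n}

namespace Par

variable (X : Par T)

theorem s_le_succ (k : ℕ) : X.s k ≤ X.s (k + 1) := X.s_mono (Nat.le_succ k)

theorem Fk_hol (k : ℕ) : DifferentiableOn ℂ (X.Fk k) (Metric.ball 0 T.r1) :=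
  T.F_hol _ _ (X.s0_le_s k) (X.s_le_succ k)

/-- (9.5) + (9.8): the defect of the conjugacy on the tiny balls. -/
theorem ev_defect : ∀ᶠ k in atTop, ∀ z : CE (Fin n), ‖z‖ ≤ Real.exp (-(5 * X.ν * X.s k)) →
    ‖X.H (k + 1) (X.Fk k z) - X.G k (X.H k z)‖ ≤ Real.exp (-(10 * X.s k)) := by
  set Dg := X.P.Dg with hDg
  set ε : ℝ := 1 / ((Dg : ℝ) + 1) with hε
  have hε0 : 0 < ε := by positivity
  have hεD : ε * (4 + 2 * (Dg : ℝ)) ≤ 4 := by
    rw [hε, div_mul_eq_mul_div, div_le_iff₀ (by positivity)]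
    nlinarith [(Nat.cast_nonneg Dg : (0 : ℝ) ≤ Dg)]
  have hν5 : 0 < 5 * X.ν := by have := X.ν_pos; positivity
  filter_upwards [X.ev_cnorm_H hε0, X.ev_cnorm_H_succ hε0, X.ev_cnorm_G hε0,
    X.ev_const (max 1 T.Bst ^ Dg) hε0, X.ev_const (max 1 T.r1 ^ Dg) hε0,
    X.ev_const ((1 / T.r1) ^ (X.d + 1)) hε0, X.ev_const 2 hε0, X.ev_const (2 / T.r1) hν5]
    with k hH hH' hG hB1 hB2 hr htwo hsmall z hz
  set s := X.s k with hs
  have hs1 : 1 ≤ s := X.one_le_s k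
  have hr1 := T.r1_pos
  -- `z` is in the ball
  have hzr : ‖z‖ < T.r1 := by
    refine hz.trans_lt ?_
    rw [Real.exp_neg, inv_lt_comm₀ (Real.exp_pos _) hr1]
    have : T.r1⁻¹ < 2 / T.r1 := by
      rw [inv_eq_one_div]; exact div_lt_div_of_pos_right (by norm_num) hr1
    linarith
  set M : ℝ := Real.exp (2 * ε * s) + Real.exp ((X.ν / 4 + ε + 2 * ε * Dg) * s) with hM
  have hbound : ∀ y ∈ Metric.ball (0 : CE (Fin n)) T.r1,
      ‖X.H (k + 1) (X.Fk k y) - X.G k (X.H k y)‖ ≤ M := by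
    intro y hy
    have hF : ‖X.Fk k y‖ ≤ max 1 T.Bst :=
      (T.F_bdd _ _ (X.s0_le_s k) (X.s_le_succ k) y hy).trans (le_max_right _ _)
    have h1 : ‖X.H (k + 1) (X.Fk k y)‖ ≤ Real.exp (2 * ε * s) := by
      have := (X.P.H (k + 1)).norm_ev_le_of_deg_le (X.P.deg_le (k + 1)).1 (le_max_left 1 T.Bst) hF
      refine this.trans ?_
      calc _ ≤ Real.exp (ε * s) * Real.exp (ε * s) :=
            mul_le_mul hH' hB1 (by positivity) (Real.exp_pos _).le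
        _ = Real.exp (2 * ε * s) := by rw [← Real.exp_add]; congr 1; ring
    have h2 : ‖X.H k y‖ ≤ Real.exp (2 * ε * s) := by
      have hy' : ‖y‖ ≤ max 1 T.r1 := (mem_ball_zero_iff.1 hy).le.trans (le_max_right _ _)
      have := (X.P.H k).norm_ev_le_of_deg_le (X.P.deg_le k).1 (le_max_left 1 T.r1) hy'
      refine this.trans ?_
      calc _ ≤ Real.exp (ε * s) * Real.exp (ε * s) :=
            mul_le_mul hH hB2 (by positivity) (Real.exp_pos _).le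
        _ = Real.exp (2 * ε * s) := by rw [← Real.exp_add]; congr 1; ring
    have h3 : ‖X.G k (X.H k y)‖ ≤ Real.exp ((X.ν / 4 + ε + 2 * ε * Dg) * s) := by
      have hY : (1 : ℝ) ≤ Real.exp (2 * ε * s) := Real.one_le_exp (by positivity)
      have := (X.P.G k).norm_ev_le_of_deg_le (X.P.deg_le k).2.1 hY h2
      refine this.trans ?_
      calc _ ≤ Real.exp ((X.ν / 4 + ε) * s) * Real.exp (2 * ε * s) ^ Dg :=
            mul_le_mul_of_nonneg_right hG.1 (by positivity)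
        _ = _ := by rw [← Real.exp_nat_mul, ← Real.exp_add]; congr 1; ring
    exact (norm_sub_le _ _).trans (add_le_add h1 h3)
  have hd : DifferentiableOn ℂ (fun y => X.H (k + 1) (X.Fk k y) - X.G k (X.H k y)) (Metric.ball 0 T.r1) :=
    ((X.H_differentiable (k + 1)).comp_differentiableOn (X.Fk_hol k)).sub
      ((X.G_differentiable k).comp (X.H_differentiable k)).differentiableOn
  have hsch := scv_schwarz_pow hr1 hd hbound (X.P.jets k) z (mem_ball_zero_iff.2 hzr)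
  refine hsch.trans ?_
  have hνp := X.ν_pos
  have hDg0 : (0 : ℝ) ≤ Dg := Nat.cast_nonneg Dg
  have hM2 : M ≤ Real.exp ((X.ν / 4 + 3 * ε + 2 * ε * Dg) * s) := by
    have h1 : Real.exp (2 * ε * s) ≤ Real.exp ((X.ν / 4 + 2 * ε + 2 * ε * Dg) * s) := by
      refine Real.exp_le_exp.2 (mul_le_mul_of_nonneg_right ?_ (by linarith))
      have : 0 ≤ 2 * ε * Dg := by positivity
      linarith
    have h2 : Real.exp ((X.ν / 4 + ε + 2 * ε * Dg) * s) ≤ Real.exp ((X.ν / 4 + 2 * ε + 2 * ε * Dg) * s) := by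
      refine Real.exp_le_exp.2 (mul_le_mul_of_nonneg_right ?_ (by linarith))
      linarith
    calc M ≤ 2 * Real.exp ((X.ν / 4 + 2 * ε + 2 * ε * Dg) * s) := by rw [hM]; linarith
      _ ≤ Real.exp (ε * s) * Real.exp ((X.ν / 4 + 2 * ε + 2 * ε * Dg) * s) :=
          mul_le_mul_of_nonneg_right htwo (Real.exp_pos _).le
      _ = _ := by rw [← Real.exp_add]; congr 1; ring
  have hq : (‖z‖ / T.r1) ^ (X.d + 1) ≤ Real.exp ((ε - 5 * X.ν * ((X.d : ℝ) + 1)) * s) := by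
    calc (‖z‖ / T.r1) ^ (X.d + 1) = ‖z‖ ^ (X.d + 1) * (1 / T.r1) ^ (X.d + 1) := by
          rw [div_eq_mul_one_div, mul_pow]
      _ ≤ Real.exp (-(5 * X.ν * s)) ^ (X.d + 1) * Real.exp (ε * s) :=
          mul_le_mul (pow_le_pow_left₀ (norm_nonneg _) hz _) hr (by positivity) (by positivity)
      _ = _ := by
          rw [← Real.exp_nat_mul, ← Real.exp_add]; congr 1; push_cast; ring
  calc M * (‖z‖ / T.r1) ^ (X.d + 1)
      ≤ Real.exp ((X.ν / 4 + 3 * ε + 2 * ε * Dg) * s) * Real.exp ((ε - 5 * X.ν * ((X.d : ℝ) + 1)) * s) :=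
        mul_le_mul hM2 hq (by positivity) (Real.exp_pos _).le
    _ = Real.exp ((X.ν / 4 + 4 * ε + 2 * ε * Dg - 5 * X.ν * ((X.d : ℝ) + 1)) * s) := by
        rw [← Real.exp_add]; congr 1; ring
    _ ≤ Real.exp (-(10 * s)) := by
        refine Real.exp_le_exp.2 ?_
        have hj := X.jet
        have hν1 := X.ν_lt_one
        have hc : X.ν / 4 + 4 * ε + 2 * ε * Dg - 5 * X.ν * ((X.d : ℝ) + 1) ≤ -10 := by nlinarith
        nlinarith

/-- tiny radii are eventually small. -/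
theorem ev_exp_neg_le {a : ℝ} (ha : 0 < a) {δ : ℝ} (hδ : 0 < δ) :
    ∀ᶠ k in atTop, Real.exp (-(a * X.s k)) ≤ δ := by
  filter_upwards [X.ev_const (1 / δ) ha] with k hk
  rw [Real.exp_neg, inv_le_comm₀ (Real.exp_pos _) hδ, inv_eq_one_div]
  exact hk

/-- sharper form used for (9.13): `|H_k z| ≤ e^{ε s_k} |z|` on the unit ball. -/
theorem ev_H_le {ε : ℝ} (hε : 0 < ε) : ∀ᶠ k in atTop, ∀ z : CE (Fin n), ‖z‖ ≤ 1 →
    ‖X.H k z‖ ≤ Real.exp (ε * X.s k) * ‖z‖ := by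
  filter_upwards [X.ev_cnorm_H hε] with k hk z hz
  exact ((X.P.H k).norm_ev_le_of_zero (X.P.H_zero k) hz).trans (mul_le_mul_of_nonneg_right hk (norm_nonneg _))

/-- (9.6). -/
theorem ev_H_small : ∀ᶠ k in atTop, ∀ z : CE (Fin n), ‖z‖ ≤ Real.exp (-(5 * X.ν * X.s k)) →
    ‖X.H k z‖ ≤ Real.exp (-(2 * X.ν * X.s k)) := by
  have hν := X.ν_pos
  filter_upwards [X.ev_H_le hν] with k hk z hz
  have hs := X.one_le_s k
  have hz1 : ‖z‖ ≤ 1 := hz.trans (Real.exp_le_one_iff.2 (by nlinarith))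
  calc ‖X.H k z‖ ≤ Real.exp (X.ν * X.s k) * ‖z‖ := hk z hz1
    _ ≤ Real.exp (X.ν * X.s k) * Real.exp (-(5 * X.ν * X.s k)) :=
        mul_le_mul_of_nonneg_left hz (Real.exp_pos _).le
    _ = Real.exp (-(4 * X.ν * X.s k)) := by rw [← Real.exp_add]; congr 1; ring
    _ ≤ _ := Real.exp_le_exp.2 (by nlinarith)

/-- (9.9) the inverse tube. -/
theorem ev_tube : ∀ᶠ k in atTop, ∀ a b : CE (Fin n), ‖a‖ ≤ Real.exp (-(X.ν * X.s (k + 1))) →
    ‖b‖ ≤ Real.exp (-(X.ν * X.s (k + 1))) → ‖X.Gi k a - X.Gi k b‖ ≤ Real.exp (X.s (k + 1) - X.s k) * ‖a - b‖ := by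
  have hν := X.ν_pos
  have hν4 : 0 < X.ν / 4 := by positivity
  have hν2 : 0 < X.ν / 2 := by positivity
  filter_upwards [X.ev_cnorm_G hν4, X.ev_rpow (ε := 1 / 4) (by norm_num), X.ev_Δ_ge 1,
    X.ev_exp_neg_le hν (δ := 1 / 2) (by norm_num), X.ev_exp_neg_le hν2 (δ := 1 / 48) (by norm_num)]
    with k hG hp hΔ hhalf hsm a b ha hb
  have hs := X.one_le_s k
  have hss := X.s_le_succ k
  set ρ := Real.exp (-(X.ν * X.s (k + 1))) with hρ
  have hρk : ρ ≤ Real.exp (-(X.ν * X.s k)) := Real.exp_le_exp.2 (by nlinarith)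
  have hρ2 : ρ ≤ 1 / 2 := hρk.trans hhalf
  have h1 := (X.P.Ginv k).lipschitz_small hρ2 a b ha hb
  refine h1.trans (mul_le_mul_of_nonneg_right ?_ (norm_nonneg _))
  have hK0 : 0 ≤ X.s k ^ X.P.Cp * Real.exp ((X.s (k + 1) - X.s k) / 2) := by positivity
  have h2 : ‖fderiv ℂ (X.P.Ginv k).ev 0‖ ≤ X.s k ^ X.P.Cp * Real.exp ((X.s (k + 1) - X.s k) / 2) :=
    PMap.norm_fderiv_inv_le (X.P.G_zero k) (X.P.G_left k) (X.P.G_right k) hK0 (X.P.G_lin_inv k)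
  have hΔdef : X.Δ k = X.s (k + 1) - X.s k := rfl
  rw [hΔdef] at hp hΔ
  set D := X.s (k + 1) - X.s k with hD
  have h3 : X.s k ^ X.P.Cp * Real.exp (D / 2) ≤ Real.exp (3 / 4 * D) := by
    calc _ ≤ Real.exp (1 / 4 * D) * Real.exp (D / 2) := mul_le_mul_of_nonneg_right hp (Real.exp_pos _).le
      _ = _ := by rw [← Real.exp_add]; congr 1; ring
  have h4 : 12 * (X.P.Ginv k).cnorm * ρ ≤ 1 / 4 := by
    have h5 : (X.P.Ginv k).cnorm * ρ ≤ Real.exp (-(X.ν / 2 * X.s k)) := by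
      calc _ ≤ Real.exp ((X.ν / 4 + X.ν / 4) * X.s k) * Real.exp (-(X.ν * X.s k)) :=
            mul_le_mul hG.2 hρk (Real.exp_pos _).le (Real.exp_pos _).le
        _ = _ := by rw [← Real.exp_add]; congr 1; ring
    nlinarith
  have h6 : Real.exp (3 / 4 * D) + 1 / 4 ≤ Real.exp D := by
    have e1 : Real.exp D = Real.exp (3 / 4 * D) * Real.exp (1 / 4 * D) := by
      rw [← Real.exp_add]; congr 1; ring
    have e2 : 1 + 1 / 4 * D ≤ Real.exp (1 / 4 * D) := by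
      have := Real.add_one_le_exp (1 / 4 * D); linarith
    have e3 : 1 ≤ Real.exp (3 / 4 * D) := Real.one_le_exp (by linarith)
    rw [e1]
    nlinarith
  linarith

theorem exists_shadowHyp : ∃ k0, ShadowHyp X.G X.Gi X.s X.ν k0 := by
  have hν := X.ν_pos
  have h1 : ∀ᶠ k in atTop, Real.exp (-(X.ν * X.s (k + 1))) ≤ 1 / 2 :=
    (tendsto_add_atTop_nat 1).eventually (X.ev_exp_neg_le hν (δ := 1 / 2) (by norm_num))
  obtain ⟨k0, hk0⟩ := eventually_atTop.1 ((X.ev_tube.and (X.ev_Δ_ge 1)).and h1)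
  refine ⟨k0, X.G_left, X.G_right, fun k => (X.Gi_differentiable k).continuous,
    fun k hk => (hk0 k hk).1.1, fun k _ => X.one_le_s k, fun k hk => (hk0 k hk).1.2,
    fun k _ => X.Δ_le k, fun k hk => ?_⟩
  have hh := (hk0 k hk).2
  have hs := X.one_le_s k
  have hΔ : X.s (k + 1) - X.s k ≤ X.s k / 10 := X.Δ_le k
  have hν1 := X.ν_lt_one
  set e := Real.exp (-(X.ν * X.s (k + 1))) with he
  have he0 : 0 < e := Real.exp_pos _
  have e1 : Real.exp (-(2 * X.ν * X.s (k + 1))) = e * e := by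
    rw [he, ← Real.exp_add]; congr 1; ring
  have e2 : Real.exp (-(6 * X.s k)) ≤ e * (1 / 2) := by
    have h3 : Real.exp (-(6 * X.s k)) = e * Real.exp (-(6 * X.s k - X.ν * X.s (k + 1))) := by
      rw [he, ← Real.exp_add]; congr 1; ring
    rw [h3]
    refine mul_le_mul_of_nonneg_left ?_ he0.le
    have h4 : (1 : ℝ) ≤ 6 * X.s k - X.ν * X.s (k + 1) := by nlinarith
    have h5 := sh_exp_neg_le (x := 6 * X.s k - X.ν * X.s (k + 1)) (by linarith)
    refine h5.trans ?_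
    rw [div_le_div_iff₀ (by linarith) (by norm_num)]
    linarith
  rw [e1]
  nlinarith

/-- `K · 12 · cnorm H_k · ρ_k ≤ 1/2`. -/
theorem ev_H_aux : ∀ᶠ k in atTop, Real.exp (-(5 * X.ν * X.s k)) ≤ 1 / 2 ∧
    X.s k ^ X.P.Cp * (12 * (X.P.H k).cnorm * Real.exp (-(5 * X.ν * X.s k))) ≤ 1 / 2 := by
  have hν := X.ν_pos
  have hν5 : 0 < 5 * X.ν := by positivity
  filter_upwards [X.ev_cnorm_H hν, X.ev_rpow' hν, X.ev_const 12 hν,
    X.ev_exp_neg_le hν5 (δ := 1 / 2) (by norm_num), X.ev_exp_neg_le (a := 2 * X.ν) (by positivity) (δ := 1 / 2) (by norm_num)]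
    with k hH hp h12 hhalf hsm
  refine ⟨hhalf, ?_⟩
  have hc := (X.P.H k).cnorm_nonneg
  have hs := X.one_le_s k
  have hp0 : 0 ≤ X.s k ^ X.P.Cp := by positivity
  set A := Real.exp (X.ν * X.s k) with hA
  have hA0 : 0 < A := Real.exp_pos _
  calc X.s k ^ X.P.Cp * (12 * (X.P.H k).cnorm * Real.exp (-(5 * X.ν * X.s k)))
      ≤ A * (A * A * Real.exp (-(5 * X.ν * X.s k))) := by
        refine mul_le_mul hp ?_ (by positivity) hA0.le
        exact mul_le_mul_of_nonneg_right (mul_le_mul h12 hH hc hA0.le) (Real.exp_pos _).le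
    _ = Real.exp (-(2 * X.ν * X.s k)) := by
        rw [hA, ← Real.exp_add, ← Real.exp_add, ← Real.exp_add]; congr 1; ring
    _ ≤ 1 / 2 := hsm

/-- `H_k` is expanding up to a polynomial factor on the tiny balls (proof of (9.12)). -/
theorem ev_H_lower : ∀ᶠ k in atTop, ∀ a b : CE (Fin n), ‖a‖ ≤ Real.exp (-(5 * X.ν * X.s k)) →
    ‖b‖ ≤ Real.exp (-(5 * X.ν * X.s k)) → ‖a - b‖ ≤ 2 * X.s k ^ X.P.Cp * ‖X.H k a - X.H k b‖ := by
  filter_upwards [X.ev_H_aux] with k hk a b ha hb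
  have hs := X.one_le_s k
  have hp0 : 0 ≤ X.s k ^ X.P.Cp := by positivity
  have h1 := (X.P.H k).lower_lipschitz_small hk.1 hp0 (X.P.H_lin_inv k) a b ha hb
  have h2 : X.s k ^ X.P.Cp * (12 * (X.P.H k).cnorm * Real.exp (-(5 * X.ν * X.s k)) * ‖a - b‖) ≤ 1 / 2 * ‖a - b‖ := by
    rw [← mul_assoc]
    exact mul_le_mul_of_nonneg_right hk.2 (norm_nonneg _)
  have h3 : ‖a - b‖ ≤ X.s k ^ X.P.Cp * ‖X.H k a - X.H k b‖ + 1 / 2 * ‖a - b‖ := by
    rw [mul_add] at h1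
    exact h1.trans (by unfold H; linarith)
  linarith

theorem ev_dH_lower : ∀ᶠ k in atTop, ∀ y : CE (Fin n), ‖y‖ ≤ Real.exp (-(5 * X.ν * X.s k)) →
    ∀ v : CE (Fin n), ‖v‖ ≤ 2 * X.s k ^ X.P.Cp * ‖fderiv ℂ (X.H k) y v‖ := by
  filter_upwards [X.ev_H_aux] with k hk y hy v
  have hs := X.one_le_s k
  have hp0 : 0 ≤ X.s k ^ X.P.Cp := by positivity
  have h1 := (X.P.H k).lower_fderiv_small hk.1 hp0 (X.P.H_lin_inv k) y hy v
  have h2 : X.s k ^ X.P.Cp * (12 * (X.P.H k).cnorm * Real.exp (-(5 * X.ν * X.s k)) * ‖v‖) ≤ 1 / 2 * ‖v‖ := by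
    rw [← mul_assoc]
    exact mul_le_mul_of_nonneg_right hk.2 (norm_nonneg _)
  have h3 : ‖v‖ ≤ X.s k ^ X.P.Cp * ‖fderiv ℂ (X.H k) y v‖ + 1 / 2 * ‖v‖ := by
    rw [mul_add] at h1
    exact h1.trans (by unfold H; linarith)
  linarith

/-- quadratic remainder of `H_k`. -/
theorem ev_H_lin {ε : ℝ} (hε : 0 < ε) : ∀ᶠ k in atTop, ∀ z : CE (Fin n), ‖z‖ < 1 →
    ‖X.H k z - fderiv ℂ (X.H k) 0 z‖ ≤ Real.exp (ε * X.s k) * ‖z‖ ^ 2 := by
  have hε2 : 0 < ε / 2 := by positivity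
  filter_upwards [X.ev_cnorm_H hε2, X.ev_const 3 hε2] with k hH h3 z hz
  refine ((X.P.H k).norm_ev_sub_lin_le (X.P.H_zero k) hz).trans (mul_le_mul_of_nonneg_right ?_ (by positivity))
  calc 3 * (X.P.H k).cnorm ≤ Real.exp (ε / 2 * X.s k) * Real.exp (ε / 2 * X.s k) :=
        mul_le_mul h3 hH (X.P.H k).cnorm_nonneg (Real.exp_pos _).le
    _ = _ := by rw [← Real.exp_add]; congr 1; ring

/-- raw orbit from the index `k` on. -/
def RawAdm (k : ℕ) (z : ℕ → CE (Fin n)) : Prop :=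
  ∀ i, k ≤ i → ‖z i‖ ≤ Real.exp (-(5 * X.ν * X.s i)) ∧ z (i + 1) = X.Fk i (z i)

theorem ev_adm_of_raw : ∀ᶠ k in atTop, ∀ z : ℕ → CE (Fin n), X.RawAdm k z →
    Adm X.G X.s X.ν k (fun i => X.H i (z i)) := by
  filter_upwards [eventually_forall_ge_atTop.2 (X.ev_H_small.and X.ev_defect)] with k hk z hz i hi
  refine ⟨(hk i hi).1 _ (hz i hi).1, ?_⟩
  simp only
  rw [(hz i hi).2]
  exact (hk i hi).2 _ (hz i hi).1

/-- **Lemma 9.1** for raw orbits. -/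
theorem ev_shadow : ∀ᶠ k in atTop, ∀ z : ℕ → CE (Fin n), X.RawAdm k z →
    (∀ l, k ≤ l → ‖bw X.Gi k l (X.H l (z l)) - fw X.G k (xi X.Gi 0 fun i => X.H i (z i))‖ ≤ Real.exp (-(8 * X.s l))) ∧
    ‖fw X.G k (xi X.Gi 0 fun i => X.H i (z i)) - X.H k (z k)‖ ≤ Real.exp (-(6 * X.s k)) := by
  obtain ⟨k0, H⟩ := X.exists_shadowHyp
  filter_upwards [X.ev_adm_of_raw, eventually_ge_atTop k0] with k hk hk0 z hz
  have hA := hk z hz
  rw [shadow_fw_xi H hk0 hA]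
  exact ⟨shadow_rate H hk0 hA, shadow_xi_close H hk0 hA⟩

end Par

/-- the transition germs compose on the small balls (identity theorem). -/
theorem comp_small (T : TransSystem n) {γ : ℝ} (hγ : 0 < γ) (hγ0 : γ ≤ T.γ0) :
    ∃ s1 : ℝ, ∀ s u w : ℝ, s1 ≤ s → s ≤ u → u ≤ w → ∀ z : CE (Fin n), ‖z‖ < Real.exp (-(γ * s)) →
      T.F s w z = T.F u w (T.F s u z) := by
  obtain ⟨sγ, hs⟩ := T.F_small γ hγ hγ0
  have hc : 0 < T.cγ * γ := mul_pos T.cγ_pos hγ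
  refine ⟨max (max T.s0 sγ) (max ((1 - Real.log T.r1) / γ) ((1 - Real.log T.r1) / (T.cγ * γ))), ?_⟩
  intro s u w h1 hsu huw z hz
  have h10 : T.s0 ≤ s := ((le_max_left _ _).trans (le_max_left _ _)).trans h1
  have h11 : sγ ≤ s := ((le_max_right _ _).trans (le_max_left _ _)).trans h1
  have h12 : (1 - Real.log T.r1) / γ ≤ s := ((le_max_left _ _).trans (le_max_right _ _)).trans h1
  have h13 : (1 - Real.log T.r1) / (T.cγ * γ) ≤ u := (((le_max_right _ _).trans (le_max_right _ _)).trans h1).trans hsu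
  rw [div_le_iff₀ hγ] at h12
  rw [div_le_iff₀ hc] at h13
  have hr1 : Real.exp (-(γ * s)) < T.r1 := by
    rw [← Real.lt_log_iff_exp_lt T.r1_pos]; linarith
  have hr2 : Real.exp (-(T.cγ * γ * u)) < T.r1 := by
    rw [← Real.lt_log_iff_exp_lt T.r1_pos]; linarith
  have hsub : Metric.ball (0 : CE (Fin n)) (Real.exp (-(γ * s))) ⊆ Metric.ball 0 T.r1 :=
    Metric.ball_subset_ball hr1.le
  have hf : DifferentiableOn ℂ (T.F s w) (Metric.ball 0 (Real.exp (-(γ * s)))) :=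
    (T.F_hol s w h10 (hsu.trans huw)).mono hsub
  have hg : DifferentiableOn ℂ (fun z => T.F u w (T.F s u z)) (Metric.ball 0 (Real.exp (-(γ * s)))) := by
    refine (T.F_hol u w (h10.trans hsu) huw).comp ((T.F_hol s u h10 hsu).mono hsub) ?_
    intro y hy
    rw [Metric.mem_ball, dist_zero_right] at hy ⊢
    exact (hs s u h11 hsu y hy.le).trans_lt hr2
  exact scv_eqOn_ball hf hg (T.F_comp s u w h10 hsu huw) (by rwa [Metric.mem_ball, dist_zero_right])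

/-- regime (ii). -/
theorem Par.ev_raw_two (X : Par T) : ∀ᶠ a in atTop, ∀ z : CE (Fin n), ‖z‖ < Real.exp (-(X.γ * X.s a)) →
    X.RawAdm a (fun i => T.F (X.s a) (X.s i) z) := by
  obtain ⟨sγ, hs⟩ := T.F_small X.γ X.γ_pos X.γ_le
  obtain ⟨s1, hc⟩ := comp_small T X.γ_pos X.γ_le
  filter_upwards [X.ev_s_ge sγ, X.ev_s_ge s1] with a ha1 ha2 z hz i hi
  have hai : X.s a ≤ X.s i := X.s_mono hi
  refine ⟨(hs _ _ ha1 hai z hz.le).trans (Real.exp_le_exp.2 ?_), hc _ _ _ ha2 hai (X.s_le_succ i) z hz⟩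
  have h1 := X.ν_lt
  have h2 : X.c * X.γ ≤ T.cγ * X.γ := mul_le_mul_of_nonneg_right X.c_le X.γ_pos.le
  have h3 := X.one_le_s i
  have h4 := X.ν_pos
  nlinarith

end Claimed.Agent.R316.S10
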