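import Claimed.Agent.R316.S10.Chart

/-!
# Row 316, S10: the global map `Ψ` (Proposition 9.2, `prop:global-coordinates`, l.192-262)

Owner: helper84.  ALL PROVED (no open proof left in this file).
Leaves: S10-PSI-A (`ev_Psi`, `Psi_o`, `Psi_hol`), S10-PSI-B (`Psi_injOn`), S10-PSI-C (`Psi_immersion`), S10-PSI-D (`ev_chart_shadow`).

* `ev_Psi` = `ev_raw_one` + `Par.ev_shadow`.
* `Psi_hol`: near `z₁ ∈ U` take `K = Φ '' closedBall z₁ ε`; for a late `k`, on `ball z₁ ε`, `fw k ∘ Ψ ∘ Φ` is the uniform limit (rate `e^{-8 s_l}`) of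
  the holomorphic maps `bw k l ∘ H_l ∘ f_{s_l} ∘ Φ`; `scv_differentiableOn_of_tendstoUniformlyOn`; `Ψ ∘ Φ = bw 0 k ∘ (fw k ∘ Ψ ∘ Φ)`.
* `Psi_injOn`: `Ψ x = Ψ y` ⟹ `|H_k f_k x - H_k f_k y| ≤ 2 e^{-6 s_k}` ⟹ (`ev_H_lower`) `|f_k x - f_k y| ≤ 4 s_k^Cp e^{-6 s_k}`; `trapping` with
  `Φ = Φ_{s_k}`, `a = f_k x`, `b = f_k y`, `L = C e^{s_k}` (`trans_bound`) ⟹ `y ∈ Φ₀ '' closedBall z₀ (4 C s_k^Cp e^{-5 s_k})` for all late `k` ⟹ `y = x`.
* `Psi_immersion`: l.249-275, Cauchy estimate only at the centre of a ball: `|d(fw k ∘ Ψ ∘ Φ)(z₁) - d(H_k ∘ f_k ∘ Φ)(z₁)| ≤ e^{-6 s_k}/ε`,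
  `|d(H_k ∘ f_k ∘ Φ)(z₁) v| ≥ (2 s_k^Cp)⁻¹ (C e^{s_k})⁻¹ |v|` (`ev_dH_lower`, `df_lower`).
* `ev_chart_shadow` (9.16): for a late `k` and `|z| < e^{-γ s_k}`: the orbit `l ↦ f_{s_l} (Φ_{s_k} z)` coincides for late `l` with `l ↦ F_{s_k,s_l} z` (`f_Φ`), so
  `Ψ (Φ_{s_k} z) = xi 0 (l ↦ H_l (F_{s_k,s_l} z))` (`xi_congr`); `ev_raw_two`, `Par.ev_shadow`, `F_refl`.
-/

set_option autoImplicit false
open scoped ContDiff ComplexOrder Topology
open Filter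

namespace Claimed.Agent.R316.S10

variable {V : Type} [NormedAddCommGroup V] [NormedSpace ℝ V]
variable {n : ℕ} {𝓜 : CMfd V (Fin n)} {g : HFam V (Fin n)} {o : V}

/-- `ζ_l(x) = H_l (f_{s_l} x)`. -/
noncomputable def zeta (S : ChartSystem 𝓜 g o) (X : Par S.toTransSystem) (x : V) (l : ℕ) : CE (Fin n) :=
  X.H l (S.f (X.s l) x)

/-- (9.11') `Ψ(x) = lim_l G_{0,l}⁻¹ H_l f_{s_l}(x)`. -/
noncomputable def Psi (S : ChartSystem 𝓜 g o) (X : Par S.toTransSystem) (x : V) : CE (Fin n) :=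
  xi X.Gi 0 (zeta S X x)

variable (S : ChartSystem 𝓜 g o) (X : Par S.toTransSystem)

/-- Lemma 9.1 in regime (i), in terms of `Ψ`: `ξ_k = G_{0,k} Ψ`. -/
theorem ev_Psi {K : Set V} (hK : IsCompact K) (hKM : K ⊆ 𝓜.carrier) :
    ∀ᶠ k in atTop, ∀ x ∈ K,
      (∀ l, k ≤ l → x ∈ S.Dom (X.s l) ∧ ‖S.f (X.s l) x‖ ≤ Real.exp (-(X.σ * X.s l)) ∧
        ‖bw X.Gi k l (zeta S X x l) - fw X.G k (Psi S X x)‖ ≤ Real.exp (-(8 * X.s l))) ∧
      ‖fw X.G k (Psi S X x) - zeta S X x k‖ ≤ Real.exp (-(6 * X.s k)) := by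
  filter_upwards [ev_raw_one S X hK hKM, X.ev_shadow] with k h1 h2 x hx
  obtain ⟨hr, hd⟩ := h1 x hx
  obtain ⟨h3, h4⟩ := h2 _ hr
  exact ⟨fun l hl => ⟨(hd l hl).1, (hd l hl).2, h3 l hl⟩, h4⟩

theorem Psi_o : Psi S X o = 0 := by
  have h : (fun l => bw X.Gi 0 l (zeta S X o l)) = fun _ => (0 : CE (Fin n)) := by
    funext l
    rw [zeta, S.f_o _ (X.s0_le_s l), X.H_zero, bw_fix X.Gi_zero]
  rw [Psi, xi, h]
  exact tendsto_const_nhds.limUnder_eq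

/-- `f_s ∘ Φ` is holomorphic on a ball whose image lies in the domain. -/
theorem f_comp_hol {Φ : CE (Fin n) → V} {U : Set (CE (Fin n))} (h : 𝓜.IsHol Φ U) {s : ℝ} (hs : S.s0 ≤ s)
    {W : Set (CE (Fin n))} (hWU : W ⊆ U) (hW : ∀ z ∈ W, Φ z ∈ S.Dom s) :
    DifferentiableOn ℂ (S.f s ∘ Φ) W :=
  (S.f_hol s hs Φ U h).mono fun z hz => ⟨hWU hz, hW z hz⟩

theorem tendsto_exp_neg_s {c : ℝ} (hc : 0 < c) : Tendsto (fun l => Real.exp (-(c * X.s l))) atTop (𝓝 0) :=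
  Real.tendsto_exp_neg_atTop_nhds_zero.comp (X.tendsto_s.const_mul_atTop hc)

/-- local form of `Ψ`: `G_{0,k} ∘ Ψ ∘ Φ` is holomorphic on small balls for late `k`. -/
theorem fw_Psi_hol {Φ : CE (Fin n) → V} {U : Set (CE (Fin n))} (h : 𝓜.IsHol Φ U) {z₁ : CE (Fin n)} {ε : ℝ}
    (hball : Metric.closedBall z₁ ε ⊆ U) :
    ∀ᶠ k in atTop, DifferentiableOn ℂ (fun z => fw X.G k (Psi S X (Φ z))) (Metric.ball z₁ ε) := by
  obtain ⟨hK, hKM⟩ := isHol_isCompact_image h (isCompact_closedBall z₁ ε) hball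
  filter_upwards [ev_Psi S X hK hKM] with k hk
  have hmem : ∀ z ∈ Metric.ball z₁ ε, Φ z ∈ Φ '' Metric.closedBall z₁ ε := fun z hz =>
    ⟨z, Metric.ball_subset_closedBall hz, rfl⟩
  refine scv_differentiableOn_of_tendstoUniformlyOn (l := atTop)
    (fs := fun l z => bw X.Gi k l (X.H l (S.f (X.s l) (Φ z)))) Metric.isOpen_ball ?_ ?_
  · rw [Metric.tendstoUniformlyOn_iff]
    intro η hη
    filter_upwards [(tendsto_exp_neg_s S X (c := 8) (by norm_num)).eventually_lt_const hη,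
      eventually_ge_atTop k] with l hl hkl z hz
    rw [dist_comm, dist_eq_norm]
    exact (((hk _ (hmem z hz)).1 l hkl).2.2).trans_lt hl
  · filter_upwards [eventually_ge_atTop k] with l hkl
    have h1 : DifferentiableOn ℂ (S.f (X.s l) ∘ Φ) (Metric.ball z₁ ε) :=
      f_comp_hol S h (X.s0_le_s l) (Metric.ball_subset_closedBall.trans hball)
        fun z hz => ((hk _ (hmem z hz)).1 l hkl).1
    exact ((bw_differentiable X.Gi_differentiable k l).comp (X.H_differentiable l)).comp_differentiableOn h1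

theorem Psi_hol (Φ : CE (Fin n) → V) (U : Set (CE (Fin n))) (h : 𝓜.IsHol Φ U) :
    DifferentiableOn ℂ (Psi S X ∘ Φ) U := by
  intro z₁ hz₁
  obtain ⟨ε, hε, hball⟩ := Metric.nhds_basis_closedBall.mem_iff.1 ((CMfd.isOpen_dom h).mem_nhds hz₁)
  obtain ⟨k, hk⟩ := (fw_Psi_hol S X h hball).exists
  have h1 : DifferentiableOn ℂ (fun z => bw X.Gi 0 k (fw X.G k (Psi S X (Φ z)))) (Metric.ball z₁ ε) :=
    (bw_differentiable X.Gi_differentiable 0 k).comp_differentiableOn hk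
  have h2 : (fun z => bw X.Gi 0 k (fw X.G k (Psi S X (Φ z)))) = Psi S X ∘ Φ := by
    funext z
    exact bw_fw X.G_left k _
  rw [h2] at h1
  exact ((h1 z₁ (Metric.mem_ball_self hε)).differentiableAt
    (Metric.isOpen_ball.mem_nhds (Metric.mem_ball_self hε))).differentiableWithinAt

theorem Psi_holTo : 𝓜.HolTo Set.univ (Psi S X) := fun Φ U h => by
  simpa using Psi_hol S X Φ U h

/-- (9.16). -/
theorem ev_chart_shadow : ∀ᶠ k in atTop, ∀ z : CE (Fin n), ‖z‖ < Real.exp (-(X.γ * X.s k)) →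
    ‖fw X.G k (Psi S X (S.Φ (X.s k) z)) - X.H k z‖ ≤ Real.exp (-(6 * X.s k)) := by
  filter_upwards [X.ev_raw_two, X.ev_shadow,
    (tendsto_exp_neg_s S X X.γ_pos).eventually_lt_const S.r1_pos] with k h1 h2 h3 z hz
  have h4 := (h2 _ (h1 z hz)).2
  have hz1 : z ∈ Metric.ball (0 : CE (Fin n)) S.r1 := by
    rw [Metric.mem_ball, dist_zero_right]; exact hz.trans h3
  have e1 : S.F (X.s k) (X.s k) z = z := S.F_refl _ (X.s0_le_s k) hz1
  have e2 : Psi S X (S.Φ (X.s k) z) = xi X.Gi 0 fun i => X.H i (S.F (X.s k) (X.s i) z) := by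
    obtain ⟨u₀, hu⟩ := f_Φ S (X.s0_le_s k) h3
    refine xi_congr ?_
    filter_upwards [X.ev_s_ge u₀] with l hl
    rw [zeta, (hu _ hl z (by rwa [Metric.mem_ball, dist_zero_right])).2]
  rw [e2]
  simp only [e1] at h4
  exact h4


theorem exp_σ_le (k : ℕ) : Real.exp (-(X.σ * X.s k)) ≤ Real.exp (-(5 * X.ν * X.s k)) := by
  refine Real.exp_le_exp.2 ?_
  have e1 := X.ν_lt_σ
  have e2 := X.one_le_s k
  have e3 := X.ν_pos
  nlinarith

theorem Psi_injOn (hg : IsMetric 𝓜 g) : Set.InjOn (Psi S X) 𝓜.carrier := by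
  intro x hx y hy hxy
  obtain ⟨Φ₀, U₀, h₀, z₀, hz₀, rfl⟩ := 𝓜.cover x hx
  obtain ⟨ε, hε, hball⟩ := Metric.nhds_basis_closedBall.mem_iff.1 ((CMfd.isOpen_dom h₀).mem_nhds hz₀)
  have hp := 𝓜.isParam h₀
  obtain ⟨C, sK, hC, hT⟩ := trans_bound S hg h₀ (isCompact_closedBall z₀ ε) hball
  have hK : IsCompact ({Φ₀ z₀, y} : Set V) := (Set.toFinite _).isCompact
  have hKM : ({Φ₀ z₀, y} : Set V) ⊆ 𝓜.carrier := by
    rintro p (rfl | rfl)
    · exact hx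
    · exact hy
  have key : ∀ η : ℝ, 0 < η → η < ε → y ∈ Φ₀ '' Metric.closedBall z₀ η := by
    intro η hη hηε
    obtain ⟨k, hk1, hk2, hk3, hk4, hk5⟩ := ((ev_Psi S X hK hKM).and (X.ev_H_lower.and ((X.ev_s_ge sK).and
      ((X.ev_rpow' one_pos).and (X.ev_const (4 * C / η) one_pos))))).exists
    set s := X.s k with hs
    have hs0 : S.s0 ≤ s := X.s0_le_s k
    have hs1 : 1 ≤ s := X.one_le_s k
    obtain ⟨hx1, hx2⟩ := hk1 (Φ₀ z₀) (by simp)
    obtain ⟨hy1, hy2⟩ := hk1 y (by simp)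
    obtain ⟨hxD, hxn, -⟩ := hx1 k le_rfl
    obtain ⟨hyD, hyn, -⟩ := hy1 k le_rfl
    set a := S.f s (Φ₀ z₀) with ha
    set b := S.f s y with hb
    have haB : a ∈ Metric.ball (0 : CE (Fin n)) S.r0 := S.f_maps s hs0 _ ⟨hx, hxD⟩
    have hbB : b ∈ Metric.ball (0 : CE (Fin n)) S.r0 := S.f_maps s hs0 _ ⟨hy, hyD⟩
    have hΦa : S.Φ s a = Φ₀ z₀ := S.Φ_f s hs0 _ ⟨hx, hxD⟩
    have hΦb : S.Φ s b = y := S.Φ_f s hs0 _ ⟨hy, hyD⟩
    have h1 : ‖X.H k a - X.H k b‖ ≤ 2 * Real.exp (-(6 * s)) := by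
      have e : X.H k a - X.H k b = -(fw X.G k (Psi S X (Φ₀ z₀)) - zeta S X (Φ₀ z₀) k) +
          (fw X.G k (Psi S X y) - zeta S X y k) := by
        rw [hxy]; simp only [zeta, ← hs, ← ha, ← hb]; abel
      rw [e]
      refine (norm_add_le _ _).trans ?_
      rw [norm_neg]
      linarith
    have h2 : ‖a - b‖ ≤ 2 * s ^ X.P.Cp * ‖X.H k a - X.H k b‖ :=
      hk2 a b (hxn.trans (exp_σ_le S X k)) (hyn.trans (exp_σ_le S X k))
    have hsp : 0 ≤ s ^ X.P.Cp := Real.rpow_nonneg (by linarith) _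
    have h3 : ‖b - a‖ ≤ 4 * Real.exp (-(5 * s)) := by
      rw [norm_sub_rev]
      calc ‖a - b‖ ≤ 2 * s ^ X.P.Cp * ‖X.H k a - X.H k b‖ := h2
        _ ≤ 2 * Real.exp (1 * s) * (2 * Real.exp (-(6 * s))) := by
            refine mul_le_mul (by linarith) h1 (norm_nonneg _) (by positivity)
        _ = 4 * (Real.exp (1 * s) * Real.exp (-(6 * s))) := by ring
        _ = 4 * Real.exp (-(5 * s)) := by rw [← Real.exp_add]; congr 2; ring
    have h4 : C * Real.exp s * ‖b - a‖ ≤ η := by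
      have e1 : 4 * C ≤ η * Real.exp (1 * s) := by
        rw [div_le_iff₀ hη] at hk5; linarith
      calc C * Real.exp s * ‖b - a‖ ≤ C * Real.exp s * (4 * Real.exp (-(5 * s))) :=
            mul_le_mul_of_nonneg_left h3 (by positivity)
        _ = 4 * C * (Real.exp s * Real.exp (-(5 * s))) := by ring
        _ = 4 * C * Real.exp (-(4 * s)) := by rw [← Real.exp_add]; congr 2; ring
        _ ≤ η * Real.exp (1 * s) * Real.exp (-(4 * s)) := mul_le_mul_of_nonneg_right e1 (Real.exp_pos _).le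
        _ = η * Real.exp (-(3 * s)) := by rw [mul_assoc, ← Real.exp_add]; congr 2; ring
        _ ≤ η * 1 := mul_le_mul_of_nonneg_left (Real.exp_le_one_iff.2 (by linarith)) hη.le
        _ = η := mul_one η
    have h5 := trapping h₀ hε hball (S.Φ_loc s hs0) (convex_ball 0 S.r0) haB hbB hΦa
      (L := C * Real.exp s) (fun z hz hzK => (hT s hk3 z hz hzK).2) (h4.trans_lt hηε)
    rw [hΦb] at h5
    exact Set.image_mono (Metric.closedBall_subset_closedBall h4) h5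
  obtain ⟨w, hw, hwy⟩ := key (ε / 2) (by positivity) (by linarith)
  have hwU : w ∈ U₀ := hball (Metric.closedBall_subset_closedBall (by linarith) hw)
  have hd : ∀ η : ℝ, 0 < η → η < ε → dist w z₀ ≤ η := by
    intro η hη hηε
    obtain ⟨w', hw', hwy'⟩ := key η hη hηε
    have hw'U : w' ∈ U₀ := hball (Metric.closedBall_subset_closedBall hηε.le hw')
    have : w' = w := hp.injOn hw'U hwU (hwy'.trans hwy.symm)
    rw [← this]
    exact hw'
  have hwz : w = z₀ := by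
    by_contra hne
    have hpos : 0 < dist w z₀ := dist_pos.2 hne
    have h1 := hd (min (dist w z₀ / 2) (ε / 2)) (lt_min (by positivity) (by positivity))
      ((min_le_right _ _).trans_lt (by linarith))
    have h2 := min_le_left (dist w z₀ / 2) (ε / 2)
    linarith
  rw [← hwy, hwz]

theorem Psi_immersion (hg : IsMetric 𝓜 g) (Φ : CE (Fin n) → V) (U : Set (CE (Fin n))) (h : 𝓜.IsHol Φ U) :
    ∀ z ∈ U, Function.Injective (fderiv ℂ (Psi S X ∘ Φ) z) := by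
  intro z₁ hz₁
  obtain ⟨ε, hε, hball⟩ := Metric.nhds_basis_closedBall.mem_iff.1 ((CMfd.isOpen_dom h).mem_nhds hz₁)
  obtain ⟨hK, hKM⟩ := isHol_isCompact_image h (isCompact_closedBall z₁ ε) hball
  obtain ⟨C, sK, hC, hdf⟩ := df_lower S hg h (isCompact_closedBall z₁ ε) hball
  rw [injective_iff_map_eq_zero]
  intro v hv
  by_contra hv0
  obtain ⟨k, hk1, hk2, hk3, hk4, hk5, hk6⟩ := ((ev_Psi S X hK hKM).and ((fw_Psi_hol S X h hball).and
    (X.ev_dH_lower.and ((X.ev_s_ge sK).and ((X.ev_rpow' one_pos).and (X.ev_const (2 * C / ε) one_pos)))))).exists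
  set s := X.s k with hs
  have hs0 : S.s0 ≤ s := X.s0_le_s k
  have hs1 : 1 ≤ s := X.one_le_s k
  have hmem : ∀ z ∈ Metric.ball z₁ ε, Φ z ∈ Φ '' Metric.closedBall z₁ ε := fun z hz =>
    ⟨z, Metric.ball_subset_closedBall hz, rfl⟩
  have hz₁b : z₁ ∈ Metric.ball z₁ ε := Metric.mem_ball_self hε
  have hnb : Metric.ball z₁ ε ∈ 𝓝 z₁ := Metric.isOpen_ball.mem_nhds hz₁b
  have hf : DifferentiableOn ℂ (S.f s ∘ Φ) (Metric.ball z₁ ε) :=
    f_comp_hol S h hs0 (Metric.ball_subset_closedBall.trans hball) fun z hz => ((hk1 _ (hmem z hz)).1 k le_rfl).1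
  have hB : DifferentiableOn ℂ (fun z => X.H k (S.f s (Φ z))) (Metric.ball z₁ ε) :=
    (X.H_differentiable k).comp_differentiableOn hf
  have hAB : ‖fderiv ℂ (fun z => fw X.G k (Psi S X (Φ z)) - X.H k (S.f s (Φ z))) z₁‖ ≤ Real.exp (-(6 * s)) / ε :=
    scv_norm_fderiv_le hε (hk2.sub hB) fun z hz => (hk1 _ (hmem z hz)).2
  have hPd : DifferentiableAt ℂ (Psi S X ∘ Φ) z₁ :=
    (Psi_hol S X Φ U h z₁ hz₁).differentiableAt ((CMfd.isOpen_dom h).mem_nhds hz₁)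
  have hdA : fderiv ℂ (fun z => fw X.G k (Psi S X (Φ z))) z₁ v = 0 := by
    have := fderiv_comp z₁ ((fw_differentiable X.G_differentiable k) ((Psi S X ∘ Φ) z₁)) hPd
    have e : (fun z => fw X.G k (Psi S X (Φ z))) = fw X.G k ∘ (Psi S X ∘ Φ) := rfl
    rw [e, this, ContinuousLinearMap.comp_apply, hv, map_zero]
  have hfd : DifferentiableAt ℂ (S.f s ∘ Φ) z₁ := (hf z₁ hz₁b).differentiableAt hnb
  have hdB : fderiv ℂ (fun z => X.H k (S.f s (Φ z))) z₁ v =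
      fderiv ℂ (X.H k) (S.f s (Φ z₁)) (fderiv ℂ (S.f s ∘ Φ) z₁ v) := by
    have := fderiv_comp z₁ ((X.H_differentiable k) ((S.f s ∘ Φ) z₁)) hfd
    have e : (fun z => X.H k (S.f s (Φ z))) = X.H k ∘ (S.f s ∘ Φ) := rfl
    rw [e, this, ContinuousLinearMap.comp_apply]; rfl
  have hsub : fderiv ℂ (fun z => fw X.G k (Psi S X (Φ z)) - X.H k (S.f s (Φ z))) z₁ v =
      - fderiv ℂ (X.H k) (S.f s (Φ z₁)) (fderiv ℂ (S.f s ∘ Φ) z₁ v) := by
    rw [fderiv_fun_sub ((hk2 z₁ hz₁b).differentiableAt hnb) ((hB z₁ hz₁b).differentiableAt hnb),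
      sub_apply, hdA, hdB, zero_sub]
  have h1 : ‖v‖ ≤ C * Real.exp s * ‖fderiv ℂ (S.f s ∘ Φ) z₁ v‖ :=
    hdf s hk4 z₁ (Metric.mem_closedBall_self hε.le) v
  have h2 : ‖fderiv ℂ (S.f s ∘ Φ) z₁ v‖ ≤
      2 * s ^ X.P.Cp * ‖fderiv ℂ (X.H k) (S.f s (Φ z₁)) (fderiv ℂ (S.f s ∘ Φ) z₁ v)‖ :=
    hk3 _ ((((hk1 _ (hmem z₁ hz₁b)).1 k le_rfl).2.1).trans (exp_σ_le S X k)) _
  have h3 : ‖fderiv ℂ (X.H k) (S.f s (Φ z₁)) (fderiv ℂ (S.f s ∘ Φ) z₁ v)‖ ≤ Real.exp (-(6 * s)) / ε * ‖v‖ := by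
    rw [← norm_neg, ← hsub]
    exact (ContinuousLinearMap.le_opNorm _ _).trans (mul_le_mul_of_nonneg_right hAB (norm_nonneg _))
  have hsp : 0 ≤ s ^ X.P.Cp := Real.rpow_nonneg (by linarith) _
  have hvpos : 0 < ‖v‖ := norm_pos_iff.2 hv0
  have h4 : ‖v‖ ≤ Real.exp (-(3 * s)) * ‖v‖ := by
    calc ‖v‖ ≤ C * Real.exp s * (2 * s ^ X.P.Cp * (Real.exp (-(6 * s)) / ε * ‖v‖)) :=
          h1.trans (mul_le_mul_of_nonneg_left (h2.trans (mul_le_mul_of_nonneg_left h3 (by positivity))) (by positivity))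
      _ ≤ C * Real.exp s * (2 * Real.exp (1 * s) * (Real.exp (-(6 * s)) / ε * ‖v‖)) := by
          refine mul_le_mul_of_nonneg_left (mul_le_mul_of_nonneg_right (by linarith) (by positivity)) (by positivity)
      _ = 2 * C / ε * (Real.exp s * Real.exp (1 * s) * Real.exp (-(6 * s))) * ‖v‖ := by ring
      _ = 2 * C / ε * Real.exp (-(4 * s)) * ‖v‖ := by rw [← Real.exp_add, ← Real.exp_add]; congr 3; ring
      _ ≤ Real.exp (1 * s) * Real.exp (-(4 * s)) * ‖v‖ :=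
          mul_le_mul_of_nonneg_right (mul_le_mul_of_nonneg_right hk6 (Real.exp_pos _).le) (norm_nonneg _)
      _ = Real.exp (-(3 * s)) * ‖v‖ := by rw [← Real.exp_add]; congr 2; ring
  have h5 : Real.exp (-(3 * s)) < 1 := Real.exp_lt_one_iff.2 (by linarith)
  nlinarith

end Claimed.Agent.R316.S10
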